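import Vale.Agent.P004F.En.Rep
import Vale.Agent.P004S.Bas2
import Vale.Agent.P022K.Cheb.Main

/-!
# P004F, row BIG: an element of determinant one and infinite order, good Frobenius elements
-/

set_option linter.all false

noncomputable section

namespace Vale.Agent.P004F.En

open NumberField Matrix
open Vale.Agent.P022 (Qb GQ)
open Vale.Agent.P004S

section lin

variable {L : Type} [Field L]

theorem ker_line {M : Matrix (Fin 2) (Fin 2) L} {w u : Fin 2 → L} (hM : M ≠ 0) (hw : w ≠ 0)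
    (h : M *ᵥ w = 0) (h' : M *ᵥ u = 0) : ∃ a : L, u = a • w := by
  have e : u 0 * w 1 = u 1 * w 0 := by
    by_contra c
    refine hM (Matrix.ext fun i j => ?_)
    have a := congrFun h i
    have b := congrFun h' i
    simp only [mulVec, dotProduct, Fin.sum_univ_two, Pi.zero_apply] at a b
    refine mul_left_cancel₀ (sub_ne_zero.2 c) ?_
    fin_cases j <;> simp only [Fin.zero_eta, Fin.mk_one, Fin.isValue, Matrix.zero_apply, mul_zero]
    · linear_combination w 1 * b - u 1 * a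
    · linear_combination u 0 * a - w 0 * b
  by_cases h0 : w 0 = 0
  · have h1 : w 1 ≠ 0 := fun k => hw (funext fun i => by fin_cases i <;> assumption)
    refine ⟨u 1 / w 1, funext fun i => ?_⟩
    fin_cases i <;> simp <;> field_simp
    exact e
  · refine ⟨u 0 / w 0, funext fun i => ?_⟩
    fin_cases i <;> simp <;> field_simp
    linear_combination -e

theorem anti {X Y : Matrix (Fin 2) (Fin 2) L} (hX : X.trace = 0) (hY : Y.trace = 0)
    (h : (X * Y).trace = 0) : X * Y = -(Y * X) := by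
  simp only [trace_fin_two, mul_apply, Fin.sum_univ_two] at hX hY h
  ext i j
  fin_cases i <;> fin_cases j <;> simp [mul_apply, Fin.sum_univ_two]
  · linear_combination h + (X 0 0) * hY - (Y 1 1) * hX
  · linear_combination (X 0 1) * hY + (Y 0 1) * hX
  · linear_combination (X 1 0) * hY + (Y 1 0) * hX
  · linear_combination h - (X 0 0) * hY + (Y 1 1) * hX

theorem tr_inv {X Y Z : Matrix (Fin 2) (Fin 2) L} (h : Y * Z = 1) :
    Y.det * (X * Z).trace = X.trace * Y.trace - (X * Y).trace := by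
  have e : Y.det • Z = Y.adjugate := by
    rw [← mul_one Y.adjugate, ← h, ← mul_assoc, adjugate_mul, smul_mul_assoc, one_mul]
  rw [← smul_eq_mul, ← trace_smul, ← mul_smul_comm, e]
  simp [trace_fin_two, adjugate_fin_two, mul_apply, Fin.sum_univ_two]
  ring

/-- a stable set of nilpotent matrices which are orthogonal for the trace form is zero -/
theorem nil_zero (h2 : (2 : L) ≠ 0) {G : Type} [Group G] (ρ : G →* Matrix (Fin 2) (Fin 2) L)
    (Γ : Subgroup G) (irr : ∀ w, w ≠ 0 → ∃ x ∈ Γ, ∀ a : L, ρ x *ᵥ w ≠ a • w)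
    (D : Set (Matrix (Fin 2) (Fin 2) L)) (t1 : ∀ X ∈ D, X.trace = 0)
    (t2 : ∀ X ∈ D, ∀ Y ∈ D, (X * Y).trace = 0) (st : ∀ y ∈ Γ, ∀ X ∈ D, ρ y⁻¹ * X * ρ y ∈ D)
    {X : Matrix (Fin 2) (Fin 2) L} (hX : X ∈ D) : X = 0 := by
  by_contra D0
  have key := fun X hX Y hY => anti (t1 X hX) (t1 Y hY) (t2 X hX Y hY)
  have sq : ∀ X ∈ D, X * X = 0 := fun X hX => by
    have := key X hX X hX
    rw [eq_neg_iff_add_eq_zero, ← two_smul L] at this
    exact (smul_eq_zero.1 this).resolve_left h2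
  obtain ⟨w, w0, hw⟩ := exists_mulVec_eq_zero_iff.2 (show X.det = 0 from
    mul_self_eq_zero.1 (by rw [← det_mul, sq X hX, det_zero]))
  obtain ⟨y, hy, h⟩ := irr w w0
  obtain ⟨s, e⟩ := ker_line D0 w0 hw (u := (ρ y⁻¹ * X * ρ y) *ᵥ w) (by
    rw [mulVec_mulVec, key X hX _ (st y hy X hX), neg_mulVec, ← mulVec_mulVec, hw, mulVec_zero,
      neg_zero])
  have s0 : s = 0 := by
    have := congrArg (· *ᵥ w) (sq _ (st y hy X hX))
    simp only [← mulVec_mulVec _ (ρ y⁻¹ * X * ρ y), e, mulVec_smul, smul_smul, zero_mulVec] at this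
    exact mul_self_eq_zero.1 ((smul_eq_zero.1 this).resolve_right w0)
  rw [s0, zero_smul] at e
  have := congrArg (ρ y *ᵥ ·) e
  simp only [mulVec_mulVec, ← mul_assoc, ← map_mul, mul_inv_cancel, map_one, one_mul,
    mulVec_zero] at this
  obtain ⟨a, ha⟩ := ker_line D0 w0 hw (u := ρ y *ᵥ w) (by rwa [mulVec_mulVec])
  exact h a ha

/-- a commutator with trace different from two -/
theorem ex_comm [IsAlgClosed L] (h2 : (2 : L) ≠ 0) {G : Type} [Group G]
    (ρ : G →* Matrix (Fin 2) (Fin 2) L) (irr : ∀ w, w ≠ 0 → ∃ x, ∀ a : L, ρ x *ᵥ w ≠ a • w) {g : G}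
    (hg : (ρ g).trace ^ 2 ≠ 4 * (ρ g).det) : ∃ x, (ρ (x * g * x⁻¹ * g⁻¹)).trace ≠ 2 := by
  by_contra hc
  push Not at hc
  have t1 : ∀ x y, (ρ (x * y * x⁻¹)).trace = (ρ y).trace := fun x y => by
    rw [map_mul, trace_mul_comm, ← map_mul, ← mul_assoc, inv_mul_cancel, one_mul]
  have t2 : ∀ x, (ρ (x * g * x⁻¹) * ρ g).trace = (ρ g).trace ^ 2 - 2 * (ρ g).det := fun x => by
    have := tr_inv (X := ρ (x * g * x⁻¹)) (Y := ρ g) (Z := ρ g⁻¹) (by simp [← map_mul])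
    rw [← map_mul, hc, t1] at this
    linear_combination this
  have t3 : ∀ x y, (ρ (x * g * x⁻¹) * ρ (y * g * y⁻¹)).trace =
      (ρ g).trace ^ 2 - 2 * (ρ g).det := fun x y => by
    rw [← t2 (y⁻¹ * x), ← map_mul, ← map_mul, ← t1 y⁻¹]
    congr 2; group
  by_cases h0 : ∀ x, ρ (x * g * x⁻¹) = ρ g
  · obtain ⟨s, hs⟩ := IsAlgClosed.exists_pow_nat_eq ((ρ g).trace ^ 2 - 4 * (ρ g).det) two_pos
    have d0 : (ρ g - (((ρ g).trace + s) / 2) • (1 : Matrix (Fin 2) (Fin 2) L)).det = 0 := by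
      simp only [det_fin_two, trace_fin_two] at hs ⊢
      simp
      field_simp
      linear_combination hs
    obtain ⟨w, w0, hw⟩ := exists_mulVec_eq_zero_iff.2 d0
    obtain ⟨y, hy⟩ := irr w w0
    refine (ker_line (fun e => hg ?_) w0 hw ?_).elim hy
    · rw [sub_eq_zero] at e
      generalize ((ρ g).trace + s) / 2 = c at e
      rw [e]
      simp
      ring
    · have e : ρ g * ρ y = ρ y * ρ g := by
        conv_lhs => rw [← h0 y, ← map_mul]
        simp [← map_mul]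
      rw [mulVec_mulVec, sub_mul, e, smul_mul_assoc, one_mul, ← mul_one (ρ y), mul_assoc, one_mul,
        ← mul_smul_comm, ← mul_sub, ← mulVec_mulVec, hw, mulVec_zero]
  refine h0 fun x => sub_eq_zero.1 ?_
  have := nil_zero h2 ρ ⊤ (fun w hw => (irr w hw).imp fun x h => ⟨trivial, h⟩)
    {X | ∃ a b : G, X = ρ (a * g * a⁻¹) - ρ (b * g * b⁻¹)} ?_ ?_ ?_ ⟨x, 1, rfl⟩
  · simpa using this
  · rintro _ ⟨a, b, rfl⟩
    rw [trace_sub, t1, t1, sub_self]
  · rintro _ ⟨a, b, rfl⟩ _ ⟨c, d, rfl⟩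
    simp only [mul_sub, sub_mul, trace_sub, t3]; ring
  · rintro y - _ ⟨a, b, rfl⟩
    refine ⟨y⁻¹ * a, y⁻¹ * b, ?_⟩
    simp only [mul_sub, sub_mul, ← map_mul]
    congr 2 <;> group

end lin

variable {r : Rp} {S : Finset ℕ}

theorem det_sub_one (M : Matrix (Fin 2) (Fin 2) ℚ_[2]) : (M - 1).det = 1 - M.trace + M.det := by
  simp [det_fin_two, trace_fin_two]; ring

theorem fix_pow (h : Rep r S) {k : GQ} (hk : Tr r 3 k) {N : ℕ} (hN : 1 / 2 ≤ ‖(N : ℚ_[2])‖) {v : V}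
    (e : mt r (k ^ N) *ᵥ v = v) : mt r k *ᵥ v = v := by
  have a : ∀ n : ℕ, ‖mt r (k ^ n) *ᵥ v - v - (n : ℚ_[2]) • (mt r k *ᵥ v - v)‖ ≤
      (1 / 2) ^ 3 * ‖mt r k *ᵥ v - v‖ := fun n => by
    induction n with
    | zero => simp [mt_one]
    | succ n ih =>
      have := Tr.norm (h.mem_Kn.1 ((h.Kn 3).pow_mem hk n)) (mt r k *ᵥ v - v)
      refine (congrArg norm ?_).trans_le (norm_add_le' ih this)
      rw [pow_succ, mt_mul, ← mulVec_mulVec, mulVec_sub, Nat.cast_succ, add_smul, one_smul]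
      abel
  have := a N
  rw [e, sub_self, zero_sub, norm_neg, norm_smul] at this
  have p := norm_nonneg (mt r k *ᵥ v - v)
  exact sub_eq_zero.1 (norm_le_zero_iff.1 (by nlinarith))

theorem fix_all (h : Rep r S) {N : ℕ} (hN : N ≠ 0) {k : GQ} (hk : Tr r 3 k) {v : V}
    (e : mt r (k ^ N) *ᵥ v = v) : mt r k *ᵥ v = v := by
  obtain ⟨a, m, hm, rfl⟩ := Nat.exists_eq_two_pow_mul_odd hN
  induction a generalizing k with
  | zero =>
    refine fix_pow h hk ?_ e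
    rw [pow_zero, one_mul, Padic.norm_natCast_eq_one_iff.2 (Nat.coprime_two_left.2 hm)]
    norm_num
  | succ a ih =>
    rw [pow_succ', mul_assoc, pow_mul] at e
    exact fix_pow h hk (N := 2) (by simpa using norm_two.ge)
      (ih ((h.Kn 3).pow_mem hk 2) (mul_ne_zero (by positivity) hm.pos.ne') e)

/-- an element of determinant one, trivial modulo eight, no power of which is unipotent -/
structure Big (r : Rp) (k : GQ) : Prop where
  ep : ep r k = 1
  tr : Tr r 3 k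
  ne : (mt r k).trace ≠ 2

theorem ep_pow (r : Rp) (k : GQ) (n : ℕ) : ep r (k ^ n) = ep r k ^ n := by
  induction n with
  | zero => simp [ep_one]
  | succ n ih => rw [pow_succ, ep_mul, ih, pow_succ]

theorem Big.pow {k : GQ} (b : Big r k) (h : Rep r S) {N : ℕ} (hN : N ≠ 0) : Big r (k ^ N) := by
  have e1 : P004S.ep r (k ^ N) = 1 := by rw [ep_pow, b.ep, one_pow]
  refine ⟨e1, (h.Kn 3).pow_mem b.tr N, fun e => b.ne ?_⟩
  obtain ⟨v, v0, hv⟩ := exists_mulVec_eq_zero_iff.2 (show (mt r (k ^ N) - 1).det = 0 by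
    rw [det_sub_one, e, show (mt r (k ^ N)).det = 1 from e1]; norm_num)
  rw [sub_mulVec, one_mulVec, sub_eq_zero] at hv
  have := exists_mulVec_eq_zero_iff.1 ⟨v, v0, show (mt r k - 1) *ᵥ v = 0 by
    rw [sub_mulVec, one_mulVec, fix_all h hN b.tr hv, sub_self]⟩
  rw [det_sub_one, show (mt r k).det = 1 from b.ep] at this
  linear_combination -this

/-- `g` has no eigenvalue near `± 1` -/
def Gq (r : Rp) (m : ℕ) (g : GQ) : Prop :=
  (1 / 2) ^ m ≤ ‖1 - (mt r g).trace + ep r g‖ ∧ (1 / 2) ^ m ≤ ‖1 + (mt r g).trace + ep r g‖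

theorem Gq.mono {m m' : ℕ} {g : GQ} (h : Gq r m g) (e : m ≤ m') : Gq r m' g :=
  have := pow_le_pow_of_le_one (a := (1 / 2 : ℝ)) (by norm_num) (by norm_num) e
  ⟨this.trans h.1, this.trans h.2⟩

theorem tr_conj (r : Rp) (x g : GQ) : (mt r (x * g * x⁻¹)).trace = (mt r g).trace := by
  rw [mt_mul, trace_mul_comm, ← mt_mul, ← mul_assoc, inv_mul_cancel, one_mul]

theorem ep_conj (r : Rp) (x g : GQ) : ep r (x * g * x⁻¹) = ep r g := by
  rw [ep_mul, mul_comm, ← ep_mul, ← mul_assoc, inv_mul_cancel, one_mul]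

theorem Gq.conj {m : ℕ} {g : GQ} (h : Gq r m g) (x : GQ) : Gq r m (x * g * x⁻¹) := by
  rwa [Gq, tr_conj, ep_conj]

theorem le_of_near {x y : ℚ_[2]} {c : ℝ} (h : c ≤ ‖x‖) (e : ‖x - y‖ < c) : c ≤ ‖y‖ :=
  not_lt.1 fun k => absurd h (not_le.2 (by
    simpa using (IsUltrametricDist.norm_add_le_max (x - y) y).trans_lt (max_lt e k)))

theorem Gq.mul {m : ℕ} {g u : GQ} (a : Gq r m g) (h : Rep r S) (hu : Tr r (m + 1) u) :
    Gq r m (g * u) := by
  have e : ∀ i j, ‖mt r g i j - mt r (g * u) i j‖ ≤ (1 / 2) ^ (m + 1) := fun i j => by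
    rw [← Matrix.sub_apply, mt_mul, ← norm_neg, ← Matrix.neg_apply, neg_sub, ← mul_sub_one, mul_apply,
      Fin.sum_univ_two]
    refine norm_add_le' ?_ ?_ <;> rw [norm_mul] <;>
      exact (mul_le_of_le_one_left (norm_nonneg _) (h.int _ _ _)).trans (hu _ _)
  have p : ∀ (i j a b) , ‖mt r g i j * mt r g a b - mt r (g * u) i j * mt r (g * u) a b‖ ≤
      (1 / 2) ^ (m + 1) := fun i j a b => by
    rw [show mt r g i j * mt r g a b - mt r (g * u) i j * mt r (g * u) a b =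
      mt r g i j * (mt r g a b - mt r (g * u) a b) +
        mt r (g * u) a b * (mt r g i j - mt r (g * u) i j) by ring]
    refine norm_add_le' ?_ ?_ <;> rw [norm_mul] <;>
      exact (mul_le_of_le_one_left (norm_nonneg _) (h.int _ _ _)).trans (e _ _)
  have e1 : ‖(mt r g).trace - (mt r (g * u)).trace‖ ≤ (1 / 2) ^ (m + 1) := by
    rw [trace_fin_two, trace_fin_two]
    exact (congrArg norm (by ring)).trans_le (norm_add_le' (e 0 0) (e 1 1))
  have e2 : ‖ep r g - ep r (g * u)‖ ≤ (1 / 2) ^ (m + 1) := by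
    rw [ep, ep, det_fin_two, det_fin_two]
    exact (congrArg norm (by ring)).trans_le (norm_sub_le' (p 0 0 1 1) (p 0 1 1 0))
  have l : (1 / 2 : ℝ) ^ (m + 1) < (1 / 2) ^ m :=
    pow_lt_pow_right_of_lt_one₀ (by norm_num) (by norm_num) m.lt_succ_self
  exact ⟨le_of_near a.1 (((congrArg norm (by ring)).trans_le (norm_sub_le' e2 e1)).trans_lt l),
    le_of_near a.2 (((congrArg norm (by ring)).trans_le (norm_add_le' e2 e1)).trans_lt l)⟩

theorem tr_rec (X H : Matrix (Fin 2) (Fin 2) ℚ_[2]) (h : H.det = 1) :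
    (X * (H * H)).trace = H.trace * (X * H).trace - X.trace := by
  simp only [det_fin_two] at h
  simp only [trace_fin_two, mul_apply, Fin.sum_univ_two]
  linear_combination (-(X 0 0) - X 1 1) * h

/-- **good elements in every coset, uniformly** -/
theorem Big.gq {k : GQ} (b : Big r k) (h : Rep r S) {N : ℕ} (hN : N ≠ 0) : ∃ m, ∀ g : GQ,
    ‖P004S.ep r g - 1‖ ≤ 1 / 4 → ∃ i ≤ 2, Gq r m (g * k ^ (N * i)) := by
  have c := b.pow h hN
  obtain ⟨m, hm⟩ := exists_pow_lt_of_lt_one (norm_pos_iff.2 (sub_ne_zero.2 c.ne))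
    (show (1 / 2 : ℝ) < 1 by norm_num)
  have τ8 : ‖(mt r (k ^ N)).trace - 2‖ ≤ (1 / 2) ^ 3 := by
    have := norm_add_le' (c.tr 0 0) (c.tr 1 1)
    rw [trace_fin_two]
    refine (congrArg norm ?_).trans_le this
    simp; ring
  refine ⟨m + 1, fun g hg => by_contra fun hc => ?_⟩
  push Not at hc
  have ad : ∀ {x y : ℚ_[2]}, ‖y‖ < ‖x‖ → ‖x + y‖ = ‖x‖ := fun l => by
    rw [IsUltrametricDist.norm_add_eq_max_of_norm_ne_norm l.ne', max_eq_left l.le]
  have e2 : ‖1 + P004S.ep r g‖ = 1 / 2 := by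
    rw [show 1 + P004S.ep r g = 2 + (P004S.ep r g - 1) by ring, ad, norm_two]
    rw [norm_two]; linarith
  have a : ∀ i ≤ 2, ∃ s : ℚ_[2], (s = 1 ∨ s = -1) ∧
      ‖(mt r (g * k ^ (N * i))).trace - s * (1 + P004S.ep r g)‖ < (1 / 2) ^ (m + 1) := fun i hi => by
    have := hc i hi
    rw [Gq, ep_mul, ep_pow, b.ep, one_pow, mul_one, not_and_or, not_le, not_le] at this
    rcases this with e | e
    · exact ⟨1, Or.inl rfl, by rw [← norm_neg]; exact (congrArg norm (by ring)).trans_lt e⟩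
    · exact ⟨-1, Or.inr rfl, (congrArg norm (by ring)).trans_lt e⟩
  obtain ⟨s0, p0, a0⟩ := a 0 (by norm_num)
  obtain ⟨s1, p1, a1⟩ := a 1 (by norm_num)
  obtain ⟨s2, p2, a2⟩ := a 2 le_rfl
  rw [mul_zero, pow_zero, mul_one] at a0
  rw [mul_one, mt_mul] at a1
  rw [mul_two, pow_add, mt_mul, mt_mul, tr_rec _ _ c.ep] at a2
  generalize (mt r (k ^ N)).trace = τ at *
  have n2 : ‖τ‖ = 1 / 2 := by
    rw [show τ = 2 + (τ - 2) by ring, ad, norm_two]
    rw [norm_two]; linarith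
  have n4 : ‖τ + 2‖ = 1 / 4 := by
    have : ‖(2 : ℚ_[2]) ^ 2‖ = 1 / 4 := by rw [norm_two_pow]; norm_num
    rw [show τ + 2 = 2 ^ 2 + (τ - 2) by ring, ad, this]
    rw [this]; linarith
  have mx : ∀ {x y : ℚ_[2]} {c : ℝ}, ‖x‖ < c → ‖y‖ < c → ‖x + y‖ < c := fun a b =>
    (IsUltrametricDist.norm_add_le_max _ _).trans_lt (max_lt a b)
  have a3 := mx (mx a0 a2) (y := -(τ * ((mt r g * mt r (k ^ N)).trace - s1 * (1 + P004S.ep r g))))
    (by
      rw [norm_neg, norm_mul, n2]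
      linarith [norm_nonneg ((mt r g * mt r (k ^ N)).trace - s1 * (1 + P004S.ep r g))])
  rw [show ∀ t0 t1 e : ℚ_[2], t0 - s0 * e + (τ * t1 - t0 - s2 * e) + -(τ * (t1 - s1 * e)) =
    (τ * s1 - s0 - s2) * e from fun _ _ _ => by ring, norm_mul, e2, pow_succ] at a3
  have a4 : ‖τ * s1 - s0 - s2‖ < ‖τ - 2‖ := by linarith
  have q : ∀ x y : ℚ_[2], x = y ∨ x = -y → ‖x‖ = ‖y‖ := fun x y e => by
    rcases e with rfl | rfl <;> simp
  have : ‖τ * s1 - s0 - s2‖ = ‖τ‖ ∨ ‖τ * s1 - s0 - s2‖ = ‖τ + 2‖ ∨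
      ‖τ * s1 - s0 - s2‖ = ‖τ - 2‖ := by
    rcases p0 with rfl | rfl <;> rcases p1 with rfl | rfl <;> rcases p2 with rfl | rfl
    · exact Or.inr (Or.inr (q _ _ (Or.inl (by ring))))
    · exact Or.inl (q _ _ (Or.inl (by ring)))
    · exact Or.inr (Or.inl (q _ _ (Or.inr (by ring))))
    · exact Or.inl (q _ _ (Or.inr (by ring)))
    · exact Or.inl (q _ _ (Or.inl (by ring)))
    · exact Or.inr (Or.inl (q _ _ (Or.inl (by ring))))
    · exact Or.inl (q _ _ (Or.inr (by ring)))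
    · exact Or.inr (Or.inr (q _ _ (Or.inr (by ring))))
  rcases this with e | e | e <;> rw [e] at a4 <;> linarith

theorem det_mt_sub (r : Rp) (a b : GQ) :
    (mt r (a * b) - mt r a).det = ep r a * (1 - (mt r b).trace + ep r b) := by
  rw [mt_mul, ← mul_sub_one, det_mul, det_sub_one]; rfl

theorem cay (X : Matrix (Fin 2) (Fin 2) ℚ_[2]) : X * X = X.trace • X - X.det • 1 := by
  ext i j
  fin_cases i <;> fin_cases j <;> simp [mul_apply, Fin.sum_univ_two, trace_fin_two, det_fin_two] <;>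
    ring

/-- passage to a normal subgroup -/
theorem Big.sub {k γ : GQ} (b : Big r k) (h : Rep r S) {Γ N : Subgroup GQ}
    (irr : ∀ w : V, w ≠ 0 → ∃ x ∈ Γ, ∀ a : ℚ_[2], mt r x *ᵥ w ≠ a • w)
    (nz : ∀ y ∈ Γ, ∀ u ∈ N, y⁻¹ * u * y ∈ N) (e1 : ∀ u ∈ N, P004S.ep r u = 1) {l : ℕ} (hl : 2 ≤ l)
    (m : γ * k * γ⁻¹ * (k ^ l)⁻¹ ∈ N) : ∃ u ∈ N, Big r u := by
  by_contra hc
  have t2 : ∀ u ∈ N, Tr r 3 u → (mt r u).trace = 2 := fun u a c => by_contra fun e =>
    hc ⟨u, a, e1 u a, c, e⟩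
  let ρ : GQ →* Matrix (Fin 2) (Fin 2) ℚ_[2] := (Units.coeHom _).comp r
  have z := nil_zero two_ne_zero ρ Γ irr {X | ∃ u ∈ N, Tr r 3 u ∧ X = mt r u - 1} ?_ ?_ ?_
    ⟨_, m, h.tr_mul (h.tr_conj b.tr γ) (h.tr_inv ((h.Kn 3).pow_mem b.tr l)), rfl⟩
  · have e : mt r (γ * k * γ⁻¹) = mt r (k ^ l) := by
      rw [← inv_mul_cancel_right (γ * k * γ⁻¹) (k ^ l), mt_mul, sub_eq_zero.1 z, one_mul]
    have t : (mt r (k ^ l)).trace = (mt r k).trace := by rw [← e, tr_conj]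
    obtain ⟨j, rfl⟩ := Nat.exists_eq_add_of_le' hl
    have c1 := b.pow h (N := j + 1) (by omega)
    have c2 := b.pow h (N := j + 2) (by omega)
    have c3 := b.pow h (N := j + 3) (by omega)
    have q : ∀ {X Y : Matrix (Fin 2) (Fin 2) ℚ_[2]}, X * Y = Y * X → X.det = 1 → Y.det = 1 →
        X.trace = Y.trace → (X - Y).det * (X * Y - 1).det = 0 := fun {X Y} a b c d => by
      rw [← det_mul, sub_mul, mul_sub, mul_sub, ← mul_assoc, ← mul_assoc, ← a, mul_assoc X Y Y,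
        cay X, cay Y, b, c, d]
      simp only [mul_sub, sub_mul, smul_mul_assoc, mul_smul_comm, one_smul, mul_one, one_mul]
      rw [sub_right_comm _ Y, sub_self, det_zero]
    have := q (X := mt r (k ^ (j + 2))) (Y := mt r k) (by rw [← mt_mul, ← mt_mul, pow_mul_comm'])
      c2.ep b.ep t
    rw [← mt_mul, ← pow_succ, det_sub_one, pow_succ' k (j + 1), det_mt_sub, b.ep, c1.ep,
      show (mt r (k ^ (j + 2 + 1))).det = 1 from c3.ep] at this
    rcases mul_eq_zero.1 this with e | e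
    · exact c1.ne (by linear_combination -e)
    · exact c3.ne (by linear_combination -e)
  · rintro _ ⟨u, a, c, rfl⟩
    rw [trace_sub, t2 u a c]; simp
  · rintro _ ⟨u, a, c, rfl⟩ _ ⟨u', a', c', rfl⟩
    simp only [mul_sub, sub_mul, trace_sub, mul_one, one_mul, ← mt_mul]
    rw [t2 u a c, t2 u' a' c', t2 _ (mul_mem a a') (h.tr_mul c c')]; simp
  · rintro y hy _ ⟨u, a, c, rfl⟩
    refine ⟨_, nz y hy u a, by simpa using h.tr_conj c y⁻¹, ?_⟩
    rw [mul_sub, sub_mul, mul_one, ← map_mul, inv_mul_cancel, map_one, mt_mul, mt_mul]; rfl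

/-- an element which fixes all roots of order a power of two of the elements of `A` -/
theorem Big.kum {k : GQ} (b : Big r k) (h : Rep r S) (hc : Cyc r) {Γ : Subgroup GQ}
    (hΓ : IsOpen (Γ : Set GQ))
    (irr : ∀ w : V, w ≠ 0 → ∃ x ∈ Γ, ∀ a : ℚ_[2], mt r x *ᵥ w ≠ a • w) (A : Set Qb)
    (hA : ∀ a ∈ A, a ≠ 0 ∧ ∀ g ∈ Γ, g a = a) : ∃ u ∈ Γ, Big r u ∧
      ∀ (m : ℕ) (y : Qb), y ^ 2 ^ m = 1 ∨ y ^ 2 ^ m ∈ A → u y = y := by
  have cy : ∀ (g : GQ) (a : ℕ), P004S.ep r g = a → ∀ (m : ℕ) (z : Qb), z ^ 2 ^ m = 1 → g z = z ^ a :=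
    fun g a e m z hz => hc g m a z hz (by rw [e, sub_self, norm_zero]; positivity)
  have c1 : ∀ g : GQ, P004S.ep r g = 1 → ∀ (m : ℕ) (z : Qb), z ^ 2 ^ m = 1 → g z = z :=
    fun g e m z hz => (cy g 1 (by rw [e, Nat.cast_one]) m z hz).trans (pow_one z)
  have st : ∀ g ∈ Γ, ∀ (m : ℕ) (y : Qb), y ^ 2 ^ m ∈ A → g y ^ 2 ^ m = y ^ 2 ^ m :=
    fun g hg m y hy => by rw [← map_pow, (hA _ hy).2 g hg]
  have ei : ∀ g, P004S.ep r g = 1 → P004S.ep r g⁻¹ = 1 := fun g e => by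
    rw [← one_mul (P004S.ep r g⁻¹), ← e, ← ep_mul, mul_inv_cancel, ep_one, e]
  let N : Subgroup GQ :=
    { carrier := {u | u ∈ Γ ∧ P004S.ep r u = 1 ∧ ∀ (m : ℕ) (y : Qb), y ^ 2 ^ m ∈ A → u y = y}
      mul_mem' := fun {u v} hu hv => ⟨mul_mem hu.1 hv.1, by rw [ep_mul, hu.2.1, hv.2.1, one_mul],
        fun m y hy => by rw [AlgEquiv.mul_apply, hv.2.2 m y hy, hu.2.2 m y hy]⟩
      one_mem' := ⟨one_mem _, ep_one r, fun _ _ _ => rfl⟩
      inv_mem' := fun {u} hu => ⟨inv_mem hu.1, ei u hu.2.1, fun m y hy => by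
        conv_lhs => rw [← hu.2.2 m y hy]
        exact u.symm_apply_apply y⟩ }
  obtain ⟨n, n0, -, hn⟩ := Subgroup.exists_pow_mem_of_index_ne_zero (idx_ne hΓ) k
  have b' := b.pow h n0.ne'
  generalize k ^ n = k at hn b'
  obtain ⟨l, γ, hl, h1, h2, h3⟩ := P022K.Cheb.exists_fr hΓ Γ.one_mem S
  have e := (h.frob l hl h1 γ h2).1
  obtain ⟨u, hu, bu⟩ := b'.sub h (γ := γ) (N := N) irr (fun y hy u hu => ⟨mul_mem (mul_mem
    (inv_mem hy) hu.1) hy, by simpa [hu.2.1] using ep_conj r y⁻¹ u, fun m z hz => by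
      rw [AlgEquiv.mul_apply, AlgEquiv.mul_apply, hu.2.2 m _ (by rwa [st y hy m z hz])]
      exact y.symm_apply_apply z⟩) (fun u hu => hu.2.1) hl.two_le
    ⟨mul_mem (mul_mem (mul_mem h3 hn) (inv_mem h3)) (inv_mem (pow_mem hn l)), by
      rw [ep_mul, ep_conj, b'.ep, ei _ (by rw [ep_pow, b'.ep, one_pow]), one_mul], fun m y hy => by
      have hw := st _ (inv_mem (pow_mem hn l)) m y hy
      rw [AlgEquiv.mul_apply]
      conv_rhs => rw [← (k ^ l).apply_symm_apply y]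
      change _ = (k ^ l) ((k ^ l)⁻¹ y)
      rw [← hw] at hy
      generalize (k ^ l)⁻¹ y = w at hy
      have a0 := (hA _ hy).1
      have w0 : w ≠ 0 := fun e => a0 (by rw [e, zero_pow (by positivity)])
      have rt : ∀ g ∈ Γ, (g w / w) ^ 2 ^ m = 1 := fun g hg => by
        rw [div_pow, st g hg m w hy, div_self a0]
      have p : ∀ i : ℕ, (k ^ i) w = (k w / w) ^ i * w := fun i => by
        induction i with
        | zero => simp
        | succ i ih =>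
          rw [pow_succ', AlgEquiv.mul_apply, ih, map_mul, map_pow, c1 k b'.ep m _ (rt k hn),
            pow_succ, mul_assoc, div_mul_cancel₀ _ w0]
      have q : k (γ⁻¹ w) = k w / w * γ⁻¹ w := by
        conv_lhs => rw [← div_mul_cancel₀ (γ⁻¹ w) w0, map_mul, c1 k b'.ep m _ (rt _ (inv_mem h3))]
        field_simp
      rw [p, AlgEquiv.mul_apply, AlgEquiv.mul_apply, q, map_mul, cy γ l e m _ (rt k hn)]
      exact congrArg _ (γ.apply_symm_apply w)⟩
  exact ⟨u, hu.1, bu, fun m y hy => hy.elim (c1 u hu.2.1 m y) (hu.2.2 m y)⟩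

open P004M.TE in
/-- **row BIG** -/
theorem big {A B : ℤ} (hD : 4 * (A : ℚ) ^ 3 + 27 * (B : ℚ) ^ 2 ≠ 0) : ∃ k, Big (rep hD) k := by
  have h0 : (2 * (4 * A ^ 3 + 27 * B ^ 2)).natAbs ≠ 0 := by
    rw [Int.natAbs_ne_zero]
    exact mul_ne_zero two_ne_zero (by exact_mod_cast hD)
  have hS : ∀ l : ℕ, l.Prime → l ∉ (2 * (4 * A ^ 3 + 27 * B ^ 2)).natAbs.primeFactors →
      ¬ (l : ℤ) ∣ 2 * (4 * A ^ 3 + 27 * B ^ 2) := fun l hl h k =>
    h (Nat.mem_primeFactors.2 ⟨hl, Int.natCast_dvd.1 k, h0⟩)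
  have h := rep_ok hD (by_contra fun k => hS 2 Nat.prime_two k (dvd_mul_right _ _)) hS
  obtain ⟨l, g, hl, h1, h2, h3⟩ := P022K.Cheb.exists_fr (h.Kn_open 3) (h.Kn 3).one_mem _
  obtain ⟨t, -, h4, h5⟩ := tr_frob hD hl (hS l hl h1) h2
  let f := algebraMap ℚ_[2] (AlgebraicClosure ℚ_[2])
  let ρ : P022.GQ →* Matrix (Fin 2) (Fin 2) (AlgebraicClosure ℚ_[2]) :=
    f.mapMatrix.toMonoidHom.comp ((Units.coeHom _).comp (rep hD))
  have t1 : ∀ x, (ρ x).trace = f (P004S.mt (rep hD) x).trace := fun x =>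
    (AddMonoidHom.map_trace f _).symm
  have t2 : (ρ g).det = f (ep (rep hD) g) := (RingHom.map_det f _).symm
  obtain ⟨x, hx⟩ := ex_comm two_ne_zero ρ (irr_rep hD) (g := g) (by
    rw [t1, t2, h4, h5, map_intCast, map_natCast]
    intro e
    have e1 : t ^ 2 = 4 * l := by exact_mod_cast e
    obtain ⟨u, rfl⟩ : 2 ∣ t := Int.prime_two.dvd_of_dvd_pow (n := 2) ⟨2 * l, by linarith⟩
    exact hl.prime.not_isSquare ⟨u.natAbs, by
      rw [← Int.natAbs_mul, show u * u = l by linarith, Int.natAbs_natCast]⟩)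
  refine ⟨x * g * x⁻¹ * g⁻¹, ?_, h.tr_mul (h.tr_conj h3 x) (h.tr_inv h3), fun e => hx ?_⟩
  · rw [ep_mul, ep_conj, ← ep_mul, mul_inv_cancel, ep_one]
  · rw [t1, e, map_ofNat]

end Vale.Agent.P004F.En
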