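import Vale.Agent.P004F.En.Ur

/-!
# P004F: the converse theorem with the hypothesis that the twist is ramified
-/

set_option linter.all false

noncomputable section

namespace Vale.Agent.P004F.En

open NumberField UpperHalfPlane
open Vale.Agent.P022 (Qb GQ)
open Vale.Agent.P022D.W (dec)
open Vale.Agent.P022E.GW (Ov)
open Vale.Agent.P004S (V Rp nu Z1 B1 Loc Two Rep Null SMITH)
open Vale.Agent.P004Z (Ok)
open Vale.Agent.P004T
open P004N (RN Lat)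

/-- **the converse theorem over `K`, the target of the block FRAME** -/
def CONVK3 (C : (ℕ → ℤ) → Prop) : Prop :=
  ∀ (N : ℕ) (G : ℍ → ℂ) (a : ℕ → ℤ) (L : PeriodPair), RN N G a → Lat N a L → C a →
    ∃ (r : Rp) (S : Finset ℕ) (P : Ideal (𝓞 Qb)), Rep r S ∧ Ov 2 P ∧ NoI r ∧
      ∀ δ : ℕ, Ok N δ → Urd a δ → ∃ E : Set ℕ, PosD E ∧ ∀ δ' ∈ E, Sp S P (ds δ) (-δ') ∧
        (¬ TwoK r P (ds δ) (-δ') → NT N δ δ' a L)

/-- almost all unramified twists have a Heegner point of infinite order -/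
def HNZ3 (C : (ℕ → ℤ) → Prop) : Prop :=
  ∀ (N : ℕ) (G : ℍ → ℂ) (a : ℕ → ℤ) (L : PeriodPair), RN N G a → Lat N a L → C a →
    Null fun d => ∃ δ : ℕ, Ok N δ ∧ Urd a δ ∧ d = ds δ ∧ ∀ δ', ¬ NT N δ δ' a L

theorem CONVK3.or {C C' : (ℕ → ℤ) → Prop} (h : CONVK3 C) (h' : CONVK3 C') :
    CONVK3 fun a => C a ∨ C' a := fun N G a L h1 h2 k => k.elim (h N G a L h1 h2) (h' N G a L h1 h2)

theorem hnz3 {C : (ℕ → ℤ) → Prop} (hS : SMITH) (hI : ISO) (hL : LOC2) (hW : GWK2) (hK : CONVK3 C) :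
    HNZ3 C := by
  intro N G a L hG hLa ha
  obtain ⟨r, S, P, hr, hP, hn, h⟩ := hK N G a L hG hLa ha
  obtain ⟨n, Λ, hΛ, hc⟩ := hL r S P hr hP hn
  have h1 : ∀ d, TwoR r d → ∃ i ∈ (Finset.univ : Finset (Fin n)), Two r (Λ i) d := by
    rintro d ⟨c, c', k, k', hi⟩
    have z : ∀ {b}, Rel r d b → Z1 r d (dec P) b := fun hb => z_res hb.1 (Set.subset_univ _)
    obtain ⟨i, h2, h3⟩ := hc d c c' (z k) (z k') (hI r S P d _ _ hr hP k k)
      (hI r S P d _ _ hr hP k k') (hI r S P d _ _ hr hP k' k) (hI r S P d _ _ hr hP k' k')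
    exact ⟨i, Finset.mem_univ _, c, c', ⟨k.1, by rw [hΛ]; exact h2, k.2⟩,
      ⟨k'.1, by rw [hΛ]; exact h3, k'.2⟩, hi⟩
  have hB := null_mono (null_ex Finset.univ fun i _ => hS _ _ (Λ i) hr) fun d _ => h1 d
  refine null_mono hB ?_
  rintro d _ ⟨δ, hδ, hu, rfl, hz⟩
  by_contra hd
  obtain ⟨E, hE, h2⟩ := h δ hδ hu
  obtain ⟨δ', h3, h4⟩ := ex_of_null (null_comp hB (neg_ne_zero.2 (ds_ne hδ))) hE
  rw [neg_mul_comm] at h4
  exact hz δ' ((h2 δ' h3).2 (hW r S P _ _ hr hP hn (ds_ne hδ) (h2 δ' h3).1 hd h4))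

end Vale.Agent.P004F.En
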