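import Vale.Agent.P004T.St
import Vale.Agent.P004M.TE.Irr
import Vale.Agent.P022K.G2.LpcB

/-!
# P004F, row REP: the Tate module satisfies `Rep` and has no local invariants in any twist
-/

set_option linter.all false

open scoped Classical

noncomputable section

namespace Vale.Agent.P004F.En

open NumberField Matrix WeierstrassCurve.Affine
open Vale.Agent.P022 (Qb GQ)
open Vale.Agent.P022D.W (dec)
open Vale.Agent.P022E.GW (Ov)
open Vale.Agent.P022K.G2.Lp (Nm ex_nm)
open Vale.Agent.P004H.H666 (xp zp eqn xp_some zp_some xp_zero zp_zero xp_neg)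
open Vale.Agent.P004M.TE hiding Qb GQ
open P027M.K

section tors

variable {A B : ℤ} {l : ℕ} {Δ : Subgroup GQ} {v : AbsoluteValue Qb ℝ} (h : Nm l Δ v)
include h

theorem v_mul {x y : Qb} {c : ℝ} (a : v x ≤ 1) (b : v y ≤ c) : v (x * y) ≤ c := by
  rw [map_mul]
  exact (mul_le_of_le_one_left (v.nonneg _) a).trans b

theorem v_big {x y : Qb} (a : v y < v x) : v (x + y) = v x := by
  refine le_antisymm (h.add le_rfl a.le) (not_lt.1 fun b => ?_)
  have := (h.na (x + y) (-y)).trans_lt (max_lt b (by rwa [v.map_neg]))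
  simp at this

theorem vA (A : ℤ) : v (algebraMap ℚ Qb (A : ℚ)) ≤ 1 := by rw [map_intCast]; exact h.int A

/-- doubling does not decrease a large first coordinate -/
theorem dbl_big {Q : Pt A B} (h0 : Q ≠ 0) (hx : 1 < v (xp Q)) :
    2 • Q ≠ 0 ∧ 1 < v (xp (2 • Q)) := by
  rcases Q with _ | ⟨x, y, h'⟩
  · exact absurd rfl h0
  rw [xp_some] at hx
  have a := vA h A
  have b := vA h B
  have x0 : 0 < v x := one_pos.trans hx
  have p : ∀ {i j : ℕ}, i < j → v x ^ i < v x ^ j := fun k => pow_lt_pow_right₀ hx k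
  have e1 : v (y ^ 2) = v x ^ 3 := by
    rw [eqn h', add_assoc, v_big h, map_pow]
    rw [map_pow]
    refine (h.add (c := v x ^ 1) (v_mul h a (pow_one _).ge) (b.trans (by simpa using hx.le))).trans_lt
      (p (by norm_num))
  have e2 : v ((x ^ 2 - algebraMap ℚ Qb A) ^ 2 - 8 * algebraMap ℚ Qb B * x) = v x ^ 4 := by
    have e3 : v (x ^ 2 - algebraMap ℚ Qb A) = v x ^ 2 := by
      rw [sub_eq_add_neg, v_big h, map_pow]
      rw [v.map_neg, map_pow]
      exact a.trans_lt (by simpa using p (i := 0) two_pos)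
    rw [sub_eq_add_neg, v_big h, map_pow, e3, ← pow_mul]
    rw [v.map_neg, map_pow, e3, ← pow_mul]
    refine (v_mul h (v_mul h (by simpa using h.nat 8) b) (pow_one _).ge).trans_lt (p (by norm_num))
  obtain ⟨μ, hμ, e3, e4⟩ := dbl two_ne_zero h'
  have y0 : y ≠ 0 := by
    rintro rfl
    rw [zero_pow two_ne_zero, map_zero] at e1
    exact absurd e1 (pow_pos x0 3).ne
  have n0 : 2 • Point.some x y h' ≠ 0 := fun k => y0 ((two_tors two_ne_zero h').1 k)
  refine ⟨n0, ?_⟩
  generalize 2 • Point.some x y h' = R at n0 e3 e4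
  rcases R with _ | ⟨x', y', h''⟩
  · exact absurd rfl n0
  rw [xp_some] at e3 ⊢
  rw [zp_some] at e4
  have e5 : 1 ≤ v μ * v x ^ 3 := by
    rw [← v.map_one, e4, map_mul, ← e1]
    exact mul_le_mul_of_nonneg_left (v_mul h (by simpa using h.nat 4) le_rfl) (v.nonneg _)
  rw [e3, map_mul, e2, pow_succ, ← mul_assoc]
  exact hx.trans_le (le_mul_of_one_le_left x0.le e5)

/-- points of order a power of two are integral -/
theorem tors_int {n : ℕ} {Q : Pt A B} (hQ : 2 ^ n • Q = 0) : v (xp Q) ≤ 1 := by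
  by_cases h0 : Q = 0
  · rw [h0, xp_zero, v.map_one]
  induction n generalizing Q with
  | zero => exact absurd (by simpa using hQ) h0
  | succ n ih =>
    by_contra hx
    obtain ⟨a, b⟩ := dbl_big h h0 (not_le.1 hx)
    exact absurd (ih (by rw [← mul_smul, ← pow_succ, hQ]) a) (not_le.2 b)

theorem sq_int {x : Qb} (a : v (x ^ 2) ≤ 1) : v x ≤ 1 := by
  rw [map_pow] at a
  exact (pow_le_one_iff_of_nonneg (v.nonneg _) two_ne_zero).1 a

/-- their first coordinates are separated -/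
theorem sep {n : ℕ} {Q R : Pt A B} (hQ : 2 ^ n • Q = 0) (hR : 2 ^ n • R = 0) (q0 : Q ≠ 0)
    (r0 : R ≠ 0) (ne : xp Q ≠ xp R) :
    v (4 * (4 * algebraMap ℚ Qb A ^ 3 + 27 * algebraMap ℚ Qb B ^ 2)) ≤ v (xp Q - xp R) := by
  have i1 := tors_int h hQ
  have i2 := tors_int h hR
  have i3 := tors_int h (n := n) (Q := Q + R) (by rw [nsmul_add, hQ, hR, add_zero])
  have i4 := tors_int h (n := n) (Q := Q + -R) (by rw [nsmul_add, neg_nsmul, hQ, hR]; simp)
  rcases Q with _ | ⟨x, y, h1⟩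
  · exact absurd rfl q0
  rcases R with _ | ⟨x', y', h2⟩
  · exact absurd rfl r0
  rw [xp_some] at i1 i2
  rw [xp_some, xp_some] at ne ⊢
  have d0 := sub_ne_zero.2 ne
  rw [Point.add_of_X_ne ne, xp_some, slope_of_X_ne ne] at i3
  rw [Point.neg_some, Point.add_of_X_ne ne, xp_some, slope_of_X_ne ne] at i4
  simp only [addX, negY, zero_mul, add_zero, sub_zero] at i3 i4
  have j3 : v ((y - y') / (x - x')) ≤ 1 := sq_int h (by
    simpa using h.add (h.add i3 i2) i1)
  have j4 : v ((y - -y') / (x - x')) ≤ 1 := sq_int h (by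
    simpa using h.add (h.add i4 i2) i1)
  have a := vA h A
  have b := vA h B
  have d1 : v (x - x') ≤ 1 := h.sub i1 i2
  have e1 : y ^ 2 = x ^ 3 + algebraMap ℚ Qb A * x + algebraMap ℚ Qb B := eqn h1
  have e2 : y' ^ 2 = x' ^ 3 + algebraMap ℚ Qb A * x' + algebraMap ℚ Qb B := eqn h2
  generalize algebraMap ℚ Qb A = a' at a e1 e2 ⊢
  generalize algebraMap ℚ Qb B = b' at b e1 e2 ⊢
  have k1 : v (2 * y) ≤ v (x - x') := by
    rw [show 2 * y = ((y - y') / (x - x') + (y - -y') / (x - x')) * (x - x') by field_simp; ring]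
    exact v_mul h (h.add j3 j4) le_rfl
  have k2 : v (x ^ 2 + x * x' + x' ^ 2 + a') ≤ v (x - x') := by
    rw [show x ^ 2 + x * x' + x' ^ 2 + a' = ((y - y') / (x - x') * ((y - -y') / (x - x'))) *
      (x - x') by field_simp; linear_combination e2 - e1]
    exact v_mul h (v_mul h j3 j4) le_rfl
  have k3 : v (3 * x ^ 2 + a') ≤ v (x - x') := by
    rw [show 3 * x ^ 2 + a' = x ^ 2 + x * x' + x' ^ 2 + a' + (2 * x + x') * (x - x') by ring]
    exact h.add k2 (v_mul h (h.add (v_mul h (by simpa using h.nat 2) i1) i2) le_rfl)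
  rw [show 4 * (4 * a' ^ 3 + 27 * b' ^ 2) = (27 * b' - 18 * a' * x) * (2 * y * (2 * y)) +
    4 * (6 * a' * (x * x) - 9 * b' * x + 4 * (a' * a')) * (3 * x ^ 2 + a') by
      linear_combination (-4 * (27 * b' - 18 * a' * x)) * e1]
  have n : ∀ k : ℕ, v (k : Qb) ≤ 1 := h.nat
  refine h.add (v_mul h (h.sub (v_mul h (by simpa using n 27) b)
    (v_mul h (v_mul h (by simpa using n 18) a) i1)) (v_mul h (k1.trans d1) k1))
    (v_mul h (v_mul h (by simpa using n 4) (h.add (h.sub (v_mul h (v_mul h (by simpa using n 6) a)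
      (v_mul h i1 i1)) (v_mul h (v_mul h (by simpa using n 9) b) i1))
      (v_mul h (by simpa using n 4) (v_mul h a a)))) k3)

end tors

theorem zero_of {G : Type} [AddCommGroup G] {Q : G} {c : ℤ} {n : ℕ} (h : Q = (2 * c) • Q)
    (hn : 2 ^ n • Q = 0) : Q = 0 := by
  have : ∀ k : ℕ, Q = (2 * c) ^ k • Q := fun k => by
    induction k with
    | zero => simp
    | succ k ih => rw [pow_succ, mul_smul, ← h, ← ih]
  rw [this n, mul_pow, mul_comm, mul_smul]
  rw [show (2 : ℤ) ^ n • Q = 2 ^ n • Q by rw [← natCast_zsmul]; push_cast; rfl, hn, smul_zero]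

variable {A B : ℤ} (hD : 4 * (A : ℚ) ^ 3 + 27 * (B : ℚ) ^ 2 ≠ 0)
include hD

/-- no line of the Tate module is fixed up to sign by a decomposition group -/
theorem no_fix {l : ℕ} {P : Ideal (𝓞 Qb)} (ho : Ov l P) {x : Tm (A : ℚ) (B : ℚ)}
    (hx : ∀ g ∈ dec P, rho _ _ g x = x ∨ rho _ _ g x = -x) : x = 0 := by
  by_contra h0
  obtain ⟨n, hn⟩ : ∃ n, TM.cp n x ≠ 0 := by
    by_contra hc
    push Not at hc
    exact h0 (TM.ext fun r => by rw [hc, map_zero])
  obtain ⟨v, h⟩ := ex_nm ho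
  have q0 : ∀ i, TM.cp (n + i) x ≠ 0 := fun i k => hn (by rw [← TM.cp_add x n i, k, nsmul_zero])
  have hε : 0 < v (4 * (4 * algebraMap ℚ Qb A ^ 3 + 27 * algebraMap ℚ Qb B ^ 2)) := by
    refine v.pos (mul_ne_zero (by norm_num) fun k => hD ((algebraMap ℚ Qb).injective ?_))
    simpa only [map_add, map_mul, map_pow, map_ofNat, map_zero] using k
  obtain ⟨m, hm⟩ := exists_pow_lt_of_lt_one hε h.lt
  have fx : ∀ i, ∀ g ∈ dec P, g (xp (TM.cp (n + i) x)) = xp (TM.cp (n + i) x) := fun i g hg => by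
    rw [← xp_ga, ← cp_rho]
    rcases hx g hg with k | k <;> rw [k]
    rw [map_neg, xp_neg]
  choose c hc using fun i => h.ap m _ (fx i) (tors_int h (TM.pow_smul_cp x (n + i)))
  have key : ∀ i j, i < j → c i ≠ c j := fun i j ij e => by
    obtain ⟨k, rfl⟩ := Nat.exists_eq_add_of_lt ij
    have e1 : 2 ^ (k + 1) • TM.cp (n + (i + k + 1)) x = TM.cp (n + i) x := by
      rw [← TM.cp_add x (n + i) (k + 1), show n + (i + k + 1) = n + i + (k + 1) by omega]
    have t2 := TM.pow_smul_cp x (n + (i + k + 1))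
    have e2 : (2 : ℤ) ^ (k + 1) • TM.cp (n + (i + k + 1)) x = TM.cp (n + i) x := by
      rw [← e1, ← natCast_zsmul]; push_cast; rfl
    have ne : xp (TM.cp (n + i) x) ≠ xp (TM.cp (n + (i + k + 1)) x) := fun k' => by
      rcases xp_eq (q0 _) (q0 _) k' with k2 | k2
      · refine q0 _ (zero_of (c := 2 ^ k) ?_ t2)
        rw [← pow_succ', e2, k2]
      · refine q0 _ (zero_of (c := -2 ^ k) ?_ t2)
        rw [mul_neg, ← pow_succ', neg_smul, e2, k2, neg_neg]
    have s := sep h (by rw [← e1, smul_comm, t2, nsmul_zero]) t2 (q0 _) (q0 _) ne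
    have s2 := h.sub (hc i) (hc (i + k + 1))
    rw [e, sub_sub_sub_cancel_right] at s2
    exact absurd (s.trans s2) (not_le.2 hm)
  obtain ⟨i, j, ij, e⟩ := Finite.exists_ne_map_eq_of_infinite c
  rcases lt_or_gt_of_ne ij with k | k
  · exact key i j k e
  · exact key j i k e.symm

theorem mt_rep (g : GQ) (i j : Fin 2) : P004S.mt (rep hD) g i j = (mt hD g i j : ℤ_[2]) := rfl

theorem ex_int (v : P004S.V) : ∃ (k : ℕ) (w : Fin 2 → ℤ_[2]), ∀ i, (w i : ℚ_[2]) = 2 ^ k * v i := by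
  obtain ⟨k, hk⟩ := pow_unbounded_of_one_lt ‖v‖ (one_lt_two (α := ℝ))
  refine ⟨k, fun i => ⟨2 ^ k * v i, ?_⟩, fun _ => rfl⟩
  have : ‖(2 : ℚ_[2])‖ = 2⁻¹ := by simpa using Padic.norm_p (p := 2)
  rw [norm_mul, norm_pow, this, inv_pow, inv_mul_le_iff₀ (by positivity), mul_one]
  exact (norm_le_pi_norm v i).trans hk.le

/-- **no local invariants** -/
theorem noi : P004T.NoI (rep hD) := fun l P d v ho hv => by
  obtain ⟨k, w, hw⟩ := ex_int hD v
  have e0 : ⇑((bs hD).repr ((bs hD).equivFun.symm w)) = w := by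
    rw [← Module.Basis.equivFun_apply, LinearEquiv.apply_symm_apply]
  have key : ∀ g (s : ℤ_[2]), P004S.mt (rep hD) g *ᵥ v = (s : ℚ_[2]) • v →
      rho _ _ g ((bs hD).equivFun.symm w) = s • (bs hD).equivFun.symm w := fun g s e => by
    apply (bs hD).repr.injective
    apply DFunLike.coe_injective
    have e1 := LinearMap.toMatrix_mulVec_repr (bs hD) (bs hD) (rho _ _ g) ((bs hD).equivFun.symm w)
    rw [e0] at e1
    change ⇑((bs hD).repr _) = ⇑((bs hD).repr _)
    rw [← e1, map_smul, Finsupp.coe_smul, e0]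
    change mt hD g *ᵥ w = _
    ext i
    have := congrFun e i
    simp only [mulVec, dotProduct, Fin.sum_univ_two, mt_rep, Pi.smul_apply, smul_eq_mul] at this ⊢
    refine Subtype.ext ?_
    change ((mt hD g i 0 : ℤ_[2]) : ℚ_[2]) * w 0 + ((mt hD g i 1 : ℤ_[2]) : ℚ_[2]) * w 1 = s * w i
    rw [hw, hw, hw]
    linear_combination 2 ^ k * this
  have z := no_fix hD ho (x := (bs hD).equivFun.symm w) fun g hg => by
    have e := hv g hg
    unfold P004S.ac at e
    rcases P004S.sg_or d g with s | s <;> rw [s] at e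
    · exact Or.inl ((key g 1 (by simpa using e)).trans (one_smul _ _))
    · refine Or.inr ((key g (-1) ?_).trans (neg_one_smul _ _))
      rw [neg_one_smul, neg_eq_iff_eq_neg] at e
      simpa using e
  have w0 : w = 0 := (bs hD).equivFun.symm.map_eq_zero_iff.1 z
  funext i
  have := hw i
  rw [w0] at this
  simpa using this.symm

theorem tr_frob {l : ℕ} (hl : l.Prime) (hg : ¬ (l : ℤ) ∣ 2 * (4 * A ^ 3 + 27 * B ^ 2)) {g : GQ}
    (h : P022.IsFrob l g) : ∃ t : ℤ, t ^ 2 ≤ 4 * l ∧ (P004S.mt (rep hD) g).trace = t ∧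
      P004S.ep (rep hD) g = l := by
  have : Fact l.Prime := ⟨hl⟩
  obtain ⟨h1, h2⟩ := frob_mt hD hg h
  refine ⟨-cs (A : ZMod l) (B : ZMod l), by rw [neg_sq]; exact cs_le hg, ?_, ?_⟩
  · rw [P004S.mt, rep_val, RingHom.mapMatrix_apply, ← AddMonoidHom.map_trace, h1]
    simp
  · rw [P004S.ep, P004S.mt, rep_val, ← RingHom.map_det, h2, map_natCast]

/-- **the hypotheses of the block SMITH** -/
theorem rep_ok {S : Finset ℕ} (h2 : 2 ∈ S)
    (hS : ∀ l : ℕ, l.Prime → l ∉ S → ¬ (l : ℤ) ∣ 2 * (4 * A ^ 3 + 27 * B ^ 2)) :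
    P004S.Rep (rep hD) S where
  cont i j := continuous_subtype_val.comp (cont_mt hD i j)
  int g i j := (mt hD g i j).2
  two := h2
  unr l hl h := haveI := Fact.mk hl; unr_rep hD (hS l hl h)
  frob l hl h g hg := by
    obtain ⟨t, h1, h3, h4⟩ := tr_frob hD hl (hS l hl h) hg
    have h5 : (2 : ℤ) ≤ l := by exact_mod_cast hl.two_le
    refine ⟨h4, fun e => ?_, fun e => ?_⟩ <;> rw [h3] at e
    · obtain rfl : t = l + 1 := by exact_mod_cast e
      nlinarith
    · obtain rfl : t = -(l + 1) := by exact_mod_cast e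
      nlinarith
  irr v hv := by
    let f := algebraMap ℚ_[2] (AlgebraicClosure ℚ_[2])
    obtain ⟨g, hg⟩ := irr_rep hD (fun i => f (v i)) fun e => hv (funext fun i =>
      f.injective ((congrFun e i).trans (map_zero f).symm))
    refine ⟨g, fun a e => hg (f a) (funext fun i => ?_)⟩
    have := congrArg f (congrFun e i)
    simpa only [mulVec, dotProduct, Fin.sum_univ_two, map_add, map_mul, Pi.smul_apply,
      smul_eq_mul, Matrix.map_apply] using this

end Vale.Agent.P004F.En
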