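import Vale.Agent.P004F.En.Big
import Vale.Agent.P004S.Bas3
import Vale.Agent.P004S.Gal1
import Vale.Agent.P004S.A.Loc

/-!
# P004F, row LH1: the first local cohomology vanishes at the odd primes
-/

set_option linter.all false

noncomputable section

namespace Vale.Agent.P004F.En

open NumberField Matrix Filter Topology
open Vale.Agent.P022 (Qb GQ)
open Vale.Agent.P022K
open Vale.Agent.P022K.CH.Loc (WMod chi_data exists_tau)
open Vale.Agent.P022D.W (dec inP_le_dec conj_inP phi_mem dec_gen exists_phi)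
open Vale.Agent.P022.H443 (inP)
open Vale.Agent.P022E.GW (Ov Fb)
open Vale.Agent.P004S
open Vale.Agent.P004T (NoI)

variable {r : Rp} {S : Finset ℕ} {l : ℕ} {P : Ideal (𝓞 Qb)} {d : ℤ}

theorem ep_of (h : Rep r S) {g : GQ} {a : ℕ} (e : ∀ (n : ℕ) (z : Qb), z ^ 2 ^ n = 1 → g z = z ^ a) :
    ep r g = a := by
  obtain ⟨x, hx⟩ : ∃ x : ℤ_[2], (x : ℚ_[2]) = ep r g := ⟨⟨_, (h.norm_ep g).le⟩, rfl⟩
  have : x = a := PadicInt.ext_of_toZModPow.1 fun n => by
    obtain ⟨ζ, hζ⟩ := Aq.ex_prim n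
    have e1 := cyc_ep r S h g n (x.appr n) ζ hζ.pow_eq_one (by
      have := (PadicInt.norm_le_pow_iff_mem_span_pow _ n).2 (x.appr_spec n)
      rw [← hx, ← PadicInt.coe_natCast, ← PadicInt.coe_sub, PadicInt.padic_norm_e_of_padicInt]
      simpa using this)
    have := (isOfFinOrder_iff_pow_eq_one.2 ⟨_, by positivity, hζ.pow_eq_one⟩).pow_eq_pow_iff_modEq.1
      (e1.symm.trans (e n ζ hζ.pow_eq_one))
    rw [← hζ.eq_orderOf, ← ZMod.natCast_eq_natCast_iff] at this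
    rw [map_natCast, ← this]
    rfl
  rw [← hx, this]; rfl

theorem root_cong (ho : Ov l P) (hl : l ≠ 2) {g : GQ} {a : ℕ} (e : ∀ x : 𝓞 Qb, g • x - x ^ a ∈ P)
    (n : ℕ) (z : Qb) (hz : z ^ 2 ^ n = 1) : g z = z ^ a := by
  let ζ : 𝓞 Qb := ⟨z, IsIntegral.of_pow (n := 2 ^ n) (by positivity) (hz ▸ isIntegral_one)⟩
  have k : ζ ^ 2 ^ n = 1 := RingOfIntegers.ext hz
  exact congrArg Subtype.val (P022E.GW.Unr.root_inj ho.2.1 (m := 2 ^ n) (fun m =>
    G2.p_notMem (p := 2) ho hl (ho.2.1.mem_of_pow_mem n (by exact_mod_cast m)))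
    (by rw [← smul_pow', k, smul_one]) (by rw [← pow_mul, mul_comm, pow_mul, k, one_pow]) (e ζ))

theorem ep_inert (h : Rep r S) (ho : Ov l P) (hl : l ≠ 2) {g : GQ} (hg : g ∈ inP P) : ep r g = 1 := by
  simpa using ep_of h (a := 1) (root_cong ho hl fun x => by rw [pow_one]; exact hg x)

theorem ep_fb (h : Rep r S) (ho : Ov l P) (hl : l ≠ 2) {g : GQ} (hg : Fb l P g) : ep r g = l :=
  ep_of h (root_cong ho hl hg)

/-- wild elements -/
def Wd (l : ℕ) (w : GQ) : Prop := ∀ U : Subgroup GQ, U.Normal → IsOpen (U : Set GQ) → WMod l U w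

theorem wd_comm (ho : Ov l P) {g j : GQ} (hg : g ∈ inP P) (hj : j ∈ inP P) :
    Wd l (g * j * (j * g)⁻¹) := fun U _ hU => by
  obtain ⟨k, _, _, χ, -, h1, -⟩ := chi_data U hU ho
  have e : ∀ a b : inP P, χ (a * b * (b * a)⁻¹) = 1 := fun a b => by
    rw [map_mul, map_mul χ a b, mul_comm (χ a), ← map_mul, ← map_mul, mul_inv_cancel, map_one]
  exact (h1 _).1 (e ⟨g, hg⟩ ⟨j, hj⟩)

theorem wd_frob (ho : Ov l P) {σ j : GQ} (hσ : Fb l P σ) (hj : j ∈ inP P) :
    Wd l (σ * j * σ⁻¹ * (j ^ l)⁻¹) := fun U _ hU => by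
  obtain ⟨k, _, _, χ, -, -, h1⟩ := chi_data U hU ho
  exact h1 σ hσ j hj

theorem small {E : Type} [SeminormedAddGroup E] {f : GQ → E} {D : Subgroup GQ}
    (c : ContinuousOn f D) (f1 : f 1 = 0) {x : ℝ} (h : ∀ U : Subgroup GQ, U.Normal →
      IsOpen (U : Set GQ) → ∃ w ∈ D, w ∈ U ∧ x ≤ ‖f w‖) : x ≤ 0 :=
  le_of_forall_pos_le_add fun ε hε => by
    obtain ⟨W, hW, e⟩ := Aq.nb (c 1 D.one_mem (Metric.ball_mem_nhds _ hε))
    obtain ⟨w, h1, h2, h3⟩ := h W hW.nrm hW.opn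
    have := e w h1 h2
    rw [Set.mem_preimage, f1, mem_ball_zero_iff] at this
    linarith

theorem norm_lp (ho : Ov l P) (hl : l ≠ 2) (m : ℕ) : ‖((l ^ m : ℕ) : ℚ_[2])‖ = 1 :=
  Padic.norm_natCast_eq_one_iff.2 (Nat.coprime_two_left.2 (ho.1.odd_of_ne_two hl).pow)

section add

variable {E : Type} [NormedAddCommGroup E] [NormedSpace ℚ_[2] E] {f : GQ → E}

/-- continuous additive functions on the inertia group -/
def Ad (P : Ideal (𝓞 Qb)) (f : GQ → E) : Prop :=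
  ContinuousOn f (inP P) ∧ ∀ g ∈ inP P, ∀ j ∈ inP P, f (g * j) = f g + f j

theorem Ad.one (a : Ad P f) : f 1 = 0 := by simpa using a.2 1 (one_mem _) 1 (one_mem _)

theorem Ad.pow (a : Ad P f) {g : GQ} (hg : g ∈ inP P) (n : ℕ) : f (g ^ n) = (n : ℚ_[2]) • f g := by
  induction n with
  | zero => simp [a.one]
  | succ n ih => rw [pow_succ, a.2 _ (pow_mem hg n) _ hg, ih, Nat.cast_succ, add_smul, one_smul]

theorem Ad.kill (a : Ad P f) (ho : Ov l P) (hl : l ≠ 2) {x : E} (h : ∀ U : Subgroup GQ, U.Normal →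
    IsOpen (U : Set GQ) → ∃ w ∈ inP P, WMod l U w ∧ f w = x) : x = 0 :=
  norm_le_zero_iff.1 (small a.1 a.one fun U n o => by
    obtain ⟨w, hw, ⟨m, hm⟩, e⟩ := h U n o
    exact ⟨_, pow_mem hw _, hm, by rw [a.pow hw, norm_smul, norm_lp ho hl, one_mul, e]⟩)

theorem Ad.frob (a : Ad P f) (ho : Ov l P) (hl : l ≠ 2) {σ j : GQ} (hσ : Fb l P σ)
    (hj : j ∈ inP P) : f (σ * j * σ⁻¹) = (l : ℚ_[2]) • f j := by
  have m := mul_mem (conj_inP (phi_mem ho.1 ho.2.1 hσ) hj) (inv_mem (pow_mem hj l))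
  have := a.2 _ m _ (pow_mem hj l)
  rwa [inv_mul_cancel_right, a.kill ho hl fun U n o => ⟨_, m, wd_frob ho hσ hj U n o, rfl⟩, zero_add,
    a.pow hj] at this

end add

/-- a tame generator -/
theorem ex_gen (ho : Ov l P) (hl : l ≠ 2) : ∃ τ ∈ inP P, ∀ f : GQ → V, Ad P f → f τ = 0 →
    ∀ g ∈ inP P, f g = 0 := by
  obtain ⟨τ, hτ, e⟩ := exists_tau ho
  refine ⟨τ, hτ, fun f a f0 g hg => a.kill ho hl fun U n o => ?_⟩
  obtain ⟨k, hk⟩ := e U n o g hg
  have m := mul_mem (inv_mem (pow_mem hτ k)) hg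
  have := a.2 _ (pow_mem hτ k) _ m
  rw [mul_inv_cancel_left, a.pow hτ, f0, smul_zero, zero_add] at this
  exact ⟨_, m, hk, this.symm⟩

section coc

variable {D : Subgroup GQ} {b : GQ → V}

theorem z_one (z : Z1 r d D b) : b 1 = 0 := by
  simpa [ac_one] using z.2 1 (one_mem _) 1 (one_mem _)

theorem z_cob (h : Rep r S) (d : ℤ) (D : Set GQ) (n : V) : Z1 r d D fun g => ac r d g n - n :=
  ⟨((h.ac_cont d continuous_id continuous_const).sub continuous_const).continuousOn,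
    fun g _ j _ => by simp only [ac_sub, ac_mul]; abel⟩

theorem z_sub (h : Rep r S) {D : Set GQ} (z : Z1 r d D b) (n : V) :
    Z1 r d D fun g => b g - (ac r d g n - n) :=
  ⟨z.1.sub (z_cob h d D n).1, fun g hg j hj => by
    simp only [z.2 g hg j hj, ac_sub, ac_mul]; abel⟩

theorem b_sub {D : Set GQ} {n : V} (k : B1 r d D fun g => b g - (ac r d g n - n)) : B1 r d D b := by
  obtain ⟨m, hm⟩ := k
  exact ⟨m + n, fun g hg => by rw [ac_add, eq_add_of_sub_eq (hm g hg)]; abel⟩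

theorem z_conj (z : Z1 r d D b) {g j : GQ} (hg : g ∈ D) (hj : j ∈ D) :
    b (g * j * g⁻¹) = ac r d g (b j) - (ac r d (g * j * g⁻¹) (b g) - b g) := by
  have := z.2 _ (mul_mem (mul_mem hg hj) (inv_mem hg)) g hg
  rw [inv_mul_cancel_right, z.2 g hg j hj] at this
  rw [eq_sub_of_add_eq this.symm]; abel

theorem z_kill (h : Rep r S) (ho : Ov l P) (hl : l ≠ 2) (z : Z1 r d D b) {w : GQ} (hw : w ∈ D)
    (t : Tr r 1 w) (k : Wd l w) : b w = 0 := by
  have a : ∀ n : ℕ, ‖b (w ^ n) - (n : ℚ_[2]) • b w‖ ≤ 1 / 2 * ‖b w‖ := fun n => by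
    induction n with
    | zero => simp [z_one z]
    | succ n ih =>
      refine (congrArg norm ?_).trans_le (norm_add_le' ih
        (norm_ac_sub (h.mem_Kn.1 ((h.Kn 1).pow_mem t n)) d (b w)))
      rw [pow_succ, z.2 _ (pow_mem hw n) _ hw, Nat.cast_succ, add_smul, one_smul]
      abel
  have := small z.1 (z_one z) (x := 1 / 2 * ‖b w‖) fun U n o => by
    obtain ⟨m, hm⟩ := k U n o
    have e := norm_sub_norm_le (((l ^ m : ℕ) : ℚ_[2]) • b w) (b (w ^ l ^ m))
    rw [norm_smul, norm_lp ho hl, norm_sub_rev] at e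
    exact ⟨_, pow_mem hw _, hm, by linarith [a (l ^ m)]⟩
  exact norm_le_zero_iff.1 (by linarith)

/-- a cocycle which kills the inertia group and the Frobenius element -/
theorem z_gen (ho : Ov l P) {σ : GQ} (hσ : Fb l P σ) (z : Z1 r d (dec P) b)
    (hI : ∀ i ∈ inP P, b i = 0) (h0 : b σ = 0) {g : GQ} (hg : g ∈ dec P) : b g = 0 := by
  have m := phi_mem ho.1 ho.2.1 hσ
  have p : ∀ n : ℕ, b (σ ^ n) = 0 := fun n => by
    induction n with
    | zero => exact z_one z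
    | succ n ih => rw [pow_succ, z.2 _ (pow_mem m n) _ m, ih, h0, ac_zero, add_zero]
  refine norm_le_zero_iff.1 (small z.1 (z_one z) fun U _ o => ?_)
  obtain ⟨n, s, v, hs, hv, rfl⟩ := dec_gen ho.1 ho.2.1 ho.2.2 hσ hg U o
  have mv : v ∈ dec P := ((dec P).mul_mem_cancel_right (pow_mem m n)).1
    (((dec P).mul_mem_cancel_right (inP_le_dec hs)).1 hg)
  refine ⟨v, mv, hv, le_of_eq ?_⟩
  rw [z.2 _ (mul_mem mv (pow_mem m n)) _ (inP_le_dec hs), hI s hs, ac_zero, add_zero,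
    z.2 _ mv _ (pow_mem m n), p, ac_zero, add_zero]

/-- a cocycle which kills an open subgroup -/
theorem z_avg {U : Subgroup GQ} (hU : IsOpen (U : Set GQ))
    (z : ∀ g ∈ D, ∀ j ∈ D, b (g * j) = b g + ac r d g (b j)) (h0 : ∀ j ∈ D, j ∈ U → b j = 0) :
    B1 r d D b := by
  classical
  haveI : U.FiniteIndex := ⟨idx_ne hU⟩
  have fin : (b '' D).Finite := by
    refine (Set.finite_range fun q : GQ ⧸ U =>
      if k : ∃ g ∈ D, (g : GQ ⧸ U) = q then b k.choose else 0).subset ?_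
    rintro _ ⟨g, hg, rfl⟩
    have k : ∃ j ∈ D, (j : GQ ⧸ U) = g := ⟨g, hg, rfl⟩
    have m := mul_mem (inv_mem k.choose_spec.1) hg
    have := z _ k.choose_spec.1 _ m
    rw [mul_inv_cancel_left, h0 _ m (QuotientGroup.eq.1 k.choose_spec.2), ac_zero, add_zero] at this
    exact ⟨g, (dif_pos k).trans this.symm⟩
  have c0 : (fin.toFinset.card : ℚ_[2]) ≠ 0 := Nat.cast_ne_zero.2 (Finset.card_ne_zero.2
    ⟨b 1, fin.mem_toFinset.2 ⟨1, one_mem _, rfl⟩⟩)
  refine ⟨-((fin.toFinset.card : ℚ_[2])⁻¹ • ∑ x ∈ fin.toFinset, x), fun g hg => ?_⟩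
  have e : ∑ x ∈ fin.toFinset, (b g + acL r d g x) = ∑ x ∈ fin.toFinset, x := by
    refine Finset.sum_bij (fun x _ => b g + acL r d g x) (fun x hx => ?_) (fun x _ y _ k => ?_)
      (fun x hx => ?_) fun _ _ => rfl
    · obtain ⟨j, hj, rfl⟩ := fin.mem_toFinset.1 hx
      exact fin.mem_toFinset.2 ⟨_, mul_mem hg hj, z g hg j hj⟩
    · simpa [← ac_mul, ac_one] using congrArg (ac r d g⁻¹) (show ac r d g x = ac r d g y from
        add_left_cancel k)
    · obtain ⟨j, hj, rfl⟩ := fin.mem_toFinset.1 hx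
      have m := mul_mem (inv_mem hg) hj
      exact ⟨_, fin.mem_toFinset.2 ⟨_, m, rfl⟩, (z g hg _ m).symm.trans (by rw [mul_inv_cancel_left])⟩
  rw [Finset.sum_add_distrib, Finset.sum_const, ← map_sum, ← Nat.cast_smul_eq_nsmul ℚ_[2]] at e
  rw [ac_neg, ac_smul, neg_sub_neg, ← smul_sub, eq_inv_smul_iff₀ c0]
  exact eq_sub_of_add_eq e

end coc

theorem wp_line {x v : V} (v0 : v ≠ 0) (h : wp x v = 0) : ∃ a : ℚ_[2], x = a • v :=
  ker_line (M := !![v 1, -v 0; 0, 0]) (fun e => v0 (funext fun i => by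
    have a := congrFun (congrFun e 0) 0
    have b := congrFun (congrFun e 0) 1
    fin_cases i <;> simp at a b ⊢ <;> assumption)) v0
    (by ext i; fin_cases i <;> simp [mulVec, dotProduct]; ring)
    (by ext i; fin_cases i <;> simp [mulVec, dotProduct]; rw [wp] at h; linear_combination h)

/-- the matrix of the twisted action -/
def am (r : Rp) (d : ℤ) (g : GQ) : Matrix (Fin 2) (Fin 2) ℚ_[2] := sg d g • mt r g

theorem am_vec (g : GQ) (v : V) : (am r d g - 1) *ᵥ v = ac r d g v - v := by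
  rw [sub_mulVec, one_mulVec, am, smul_mulVec, ac]

theorem am_det (g : GQ) : (am r d g).det = ep r g := by
  rw [am, det_smul, Fintype.card_fin, sq, sg_sq, one_mul, ep]

theorem am_mul (g j : GQ) : am r d (g * j) = am r d g * am r d j := by
  rw [am, am, am, sg_mul, mt_mul, smul_mul_smul_comm]

/-- a group of unipotent matrices has a fixed vector -/
theorem kol {D : Subgroup GQ} (e : ∀ g ∈ D, ep r g = 1) (u : ∀ g ∈ D, (am r d g - 1).det = 0) :
    ∃ v : V, v ≠ 0 ∧ ∀ g ∈ D, ac r d g v = v := by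
  have t : ∀ g ∈ D, (am r d g - 1).trace = 0 := fun g hg => by
    have := u g hg
    rw [det_sub_one, am_det, e g hg] at this
    rw [trace_sub, trace_one, Fintype.card_fin]
    linear_combination -this
  have t2 : ∀ g ∈ D, ∀ j ∈ D, (am r d g - 1) * (am r d j - 1) = -((am r d j - 1) * (am r d g - 1)) :=
    fun g hg j hj => anti (t g hg) (t j hj) (by
      rw [show (am r d g - 1) * (am r d j - 1) = am r d (g * j) - 1 - (am r d g - 1) - (am r d j - 1)
        by rw [am_mul]; noncomm_ring, trace_sub, trace_sub, t _ (mul_mem hg hj), t g hg, t j hj]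
      simp)
  by_cases k : ∀ g ∈ D, am r d g - 1 = 0
  · exact ⟨1, one_ne_zero, fun g hg => sub_eq_zero.1 (by rw [← am_vec, k g hg, zero_mulVec])⟩
  push Not at k
  obtain ⟨j, hj, j0⟩ := k
  obtain ⟨v, v0, hv⟩ := exists_mulVec_eq_zero_iff.2 (u j hj)
  refine ⟨v, v0, fun g hg => sub_eq_zero.1 ?_⟩
  obtain ⟨s, hs⟩ := ker_line j0 v0 hv (u := (am r d g - 1) *ᵥ v) (by
    rw [mulVec_mulVec, t2 j hj g hg, neg_mulVec, ← mulVec_mulVec, hv, mulVec_zero, neg_zero])
  have := t2 g hg g hg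
  rw [eq_neg_iff_add_eq_zero, ← two_smul ℚ_[2]] at this
  have := congrArg (· *ᵥ v) ((smul_eq_zero.1 this).resolve_left two_ne_zero)
  simp only [← mulVec_mulVec, hs, mulVec_smul, smul_smul, zero_mulVec] at this
  rw [← am_vec, hs, mul_self_eq_zero.1 ((smul_eq_zero.1 this).resolve_right v0), zero_smul]

/-- **LH1**: without local invariants the first cohomology vanishes at an odd prime -/
theorem lh1' (h : Rep r S) (ho : Ov l P) (hl : l ≠ 2)
    (hn : ∀ v : V, (∀ g ∈ dec P, ac r d g v = v) → v = 0) {c : GQ → V} (z : Z1 r d (dec P) c) :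
    B1 r d (dec P) c := by
  obtain ⟨σ, hσ⟩ := exists_phi ho.1 ho.2.1 ho.2.2
  have m := phi_mem ho.1 ho.2.1 hσ
  let F : Submodule ℚ_[2] V := ⨅ i ∈ inP P, LinearMap.ker (acL r d i - LinearMap.id)
  have mF : ∀ v, v ∈ F ↔ ∀ i ∈ inP P, ac r d i v = v := fun v => by
    simp only [F, Submodule.mem_iInf, LinearMap.mem_ker, LinearMap.sub_apply, sub_eq_zero]; rfl
  have st : ∀ v ∈ F, ac r d σ v ∈ F := fun v hv => (mF _).2 fun i hi => by
    have := (mF _).1 hv _ (conj_inP (inv_mem m) hi)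
    conv_rhs => rw [← this]
    simp only [← ac_mul]; congr 1; group
  have sj : ∀ x ∈ F, ∃ n ∈ F, ac r d σ n - n = x := fun x hx => by
    let f : F →ₗ[ℚ_[2]] F := (acL r d σ - LinearMap.id).restrict fun v hv => F.sub_mem (st v hv) hv
    obtain ⟨n, e⟩ := LinearMap.injective_iff_surjective.1 ((injective_iff_map_eq_zero f).2
      fun v hv => Subtype.ext (hn v fun g hg => sub_eq_zero.1 (z_gen ho hσ (z_cob h d _ v)
        (fun i hi => sub_eq_zero.2 ((mF _).1 v.2 i hi)) (congrArg Subtype.val hv) hg))) ⟨x, hx⟩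
    exact ⟨n, n.2, congrArg Subtype.val e⟩
  suffices k : B1 r d (inP P) c by
    obtain ⟨n, e⟩ := k
    have z1 := z_sub h z n
    obtain ⟨n', h1, h2⟩ := sj (c σ - (ac r d σ n - n)) ((mF _).2 fun i hi => by
      have a := z_conj z1 m (inP_le_dec (conj_inP (inv_mem m) hi))
      rw [show σ * (σ⁻¹ * i * σ⁻¹⁻¹) * σ⁻¹ = i by group, e i hi, e _ (conj_inP (inv_mem m) hi),
        sub_self, sub_self, ac_zero, zero_sub, eq_comm, neg_eq_zero, sub_eq_zero] at a
      exact a)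
    exact b_sub (n := n) ⟨n', fun g hg => sub_eq_zero.1 (z_gen ho hσ (z_sub h z1 n') (fun i hi => by
      simp only [e i hi, (mF _).1 h1 i hi, sub_self]) (by simp only [h2, sub_self]) hg)⟩
  have cI : ∀ {b}, Z1 r d (dec P) b → ∀ g ∈ inP P, ∀ j ∈ inP P, b (g * j) = b g + ac r d g (b j) :=
    fun zb g hg j hj => zb.2 g (inP_le_dec hg) j (inP_le_dec hj)
  by_cases k : ∀ g ∈ inP P, (am r d g - 1).det = 0
  · obtain ⟨v, v0, hv⟩ := kol (fun g hg => ep_inert h ho hl hg) k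
    have wf : ∀ x, ∀ u ∈ F, ∀ i ∈ inP P, wp (ac r d i x) u = wp x u := fun x u hu i hi => by
      conv_lhs => rw [← (mF _).1 hu i hi, wp_ac, ep_inert h ho hl hi, one_mul]
    have pp : ∀ b, Z1 r d (dec P) b → ∀ u ∈ F, ∀ i ∈ inP P, wp (b i) u = 0 := fun b zb u hu i hi => by
      obtain ⟨n, h1, h2⟩ := sj u hu
      have a : Ad P fun g => wp (b g) (ac r d σ n) :=
        ⟨(wp_cont continuous_id continuous_const).comp_continuousOn (zb.1.mono inP_le_dec),
          fun g hg j hj => by simp only [cI zb g hg j hj, wp_add_left, wf _ _ (st n h1) g hg]⟩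
      have e := a.frob ho hl hσ hi
      simp only [z_conj zb m (inP_le_dec hi), wp_sub_left, wf _ _ (st n h1) _ (conj_inP m hi),
        sub_self, sub_zero, wp_ac, ep_fb h ho hl hσ, smul_eq_mul] at e
      rw [← h2, wp_sub_right, mul_left_cancel₀ (Nat.cast_ne_zero.2 ho.1.ne_zero) e, sub_self]
    have ad : ∀ b, Z1 r d (dec P) b → Ad P b ∧ ∀ i ∈ inP P, ∃ a : ℚ_[2], b i = a • v := fun b zb => by
      have a1 := fun i hi => wp_line v0 (pp b zb v ((mF _).2 hv) i hi)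
      refine ⟨⟨zb.1.mono inP_le_dec, fun g hg j hj => ?_⟩, a1⟩
      obtain ⟨a, e⟩ := a1 j hj
      rw [cI zb g hg j hj, e, ac_smul, hv g hg]
    obtain ⟨τ, hτ, e⟩ := ex_gen ho hl
    obtain ⟨a, ha⟩ := (ad c z).2 τ hτ
    by_cases k : ∀ u, ac r d τ u - u = 0
    · refine ⟨0, fun i hi => ?_⟩
      have a := fun u => pp c z u ((mF _).2 fun j hj =>
        sub_eq_zero.1 (e _ (ad _ (z_cob h d _ u)).1 (k u) j hj)) i hi
      have a0 := a ![1, 0]
      have a1 := a ![0, 1]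
      rw [ac_zero, sub_zero]
      ext t; fin_cases t <;> simp [wp] at a0 a1 ⊢ <;> assumption
    push Not at k
    obtain ⟨u, hu⟩ := k
    obtain ⟨a', ha'⟩ := (ad _ (z_cob h d _ u)).2 τ hτ
    have a0 : a' ≠ 0 := fun k => hu (by rw [ha', k, zero_smul])
    exact ⟨(a / a') • u, fun i hi => sub_eq_zero.1 (e _ (ad _ (z_sub h z _)).1 (by
      rw [ac_smul, ← smul_sub, ha', ha, smul_smul, div_mul_cancel₀ _ a0, sub_self]) i hi)⟩
  push Not at k
  obtain ⟨g, hg, k⟩ := k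
  have iv := isUnit_iff_ne_zero.2 k
  have z1 := z_sub h z ((am r d g - 1)⁻¹ *ᵥ c g)
  refine b_sub (z_avg (h.Kn_open 1) (cI z1) fun j hj t => ?_)
  generalize hb : (fun j => c j - (ac r d j ((am r d g - 1)⁻¹ *ᵥ c g) - (am r d g - 1)⁻¹ *ᵥ c g)) = b
    at z1
  have b0 : b g = 0 := by
    rw [← hb]; simp only [← am_vec, mulVec_mulVec, mul_nonsing_inv _ iv, one_mulVec, sub_self]
  have mw := mul_mem (mul_mem hg hj) (inv_mem (mul_mem hj hg))
  have tw : Tr r 1 (g * j * (j * g)⁻¹) := by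
    have := h.tr_mul (h.tr_conj t g) (h.tr_inv t)
    rwa [show g * j * g⁻¹ * j⁻¹ = g * j * (j * g)⁻¹ by group] at this
  have e := cI z1 _ mw _ (mul_mem hj hg)
  have w1 := z_kill h ho hl (z_cob h d _ (b j)) (inP_le_dec mw) tw (wd_comm ho hg hj)
  rw [inv_mul_cancel_right, z_kill h ho hl z1 (inP_le_dec mw) tw (wd_comm ho hg hj), cI z1 g hg j hj,
    cI z1 j hj g hg, b0, ac_zero, add_zero, sub_eq_zero.1 w1, zero_add, zero_add, ← sub_eq_zero,
    ← am_vec] at e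
  rw [show c j - _ = b j from congrFun hb j, ← one_mulVec (b j), ← nonsing_inv_mul _ iv,
    ← mulVec_mulVec, e, mulVec_zero]

theorem lh1 (h : Rep r S) (hn : NoI r) (ho : Ov l P) (hl : l ≠ 2) {c : GQ → V}
    (z : Z1 r d (dec P) c) : B1 r d (dec P) c := lh1' h ho hl (fun v => hn l P d v ho) z

end Vale.Agent.P004F.En
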