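import Vale.Agent.P004F.En.Lh
import Vale.Agent.P004T.St2

/-!
# P004F, row SHAP: classes over the quadratic field and pairs of classes over the rationals
-/

set_option linter.all false

noncomputable section

namespace Vale.Agent.P004F.En

open NumberField Matrix Filter Topology
open Vale.Agent.P022 (Qb GQ)
open Vale.Agent.P022D.W (dec)
open Vale.Agent.P022E.GW (Ov)
open Vale.Agent.P004S
open Vale.Agent.P004T

variable {r : Rp} {S : Finset ℕ} {P : Ideal (𝓞 Qb)} {d e : ℤ} {z z' : GQ → V} {s t : GQ}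

/-- the classes over `ℚ(√e)` which are trivial on `D` form a space of dimension at most one -/
def OneK (r : Rp) (D : Set GQ) (d e : ℤ) : Prop :=
  ∀ z z' : GQ → V, Z1 r d (kn e) z → Z1 r d (kn e) z' → B1 r d D z → B1 r d D z' →
    ∃ x y : ℚ_[2], ¬ (x = 0 ∧ y = 0) ∧ B1 r d (kn e) (x • z + y • z')

theorem kn_conj {g : GQ} (t : GQ) (hg : g ∈ kn e) : t * g * t⁻¹ ∈ kn e := by
  rwa [mem_kn, nu_conj]

/-- the conjugate cocycle -/
def cj (r : Rp) (d : ℤ) (t : GQ) (z : GQ → V) (g : GQ) : V := ac r d t⁻¹ (z (t * g * t⁻¹))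

theorem cj_cj (r : Rp) (d : ℤ) (t : GQ) (z : GQ → V) : cj r d t⁻¹ (cj r d t z) = z :=
  funext fun g => by simp [cj, ← ac_mul, ac_one, mul_assoc]

theorem cj_z (h : Rep r S) (k : Z1 r d (kn e) z) (t : GQ) : Z1 r d (kn e) (cj r d t z) :=
  ⟨(acL r d t⁻¹).continuous_of_finiteDimensional.comp_continuousOn
    (k.1.comp (by fun_prop) fun g hg => kn_conj t hg), fun g hg j hj => by
      have := k.2 _ (kn_conj t hg) _ (kn_conj t hj)
      rw [show t * g * t⁻¹ * (t * j * t⁻¹) = t * (g * j) * t⁻¹ by group] at this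
      simp only [cj, this, ac_add, ← ac_mul]
      congr 2; group⟩

theorem cj_b {D D' : Set GQ} (k : B1 r d D z) (hD : ∀ g ∈ D', t * g * t⁻¹ ∈ D) :
    B1 r d D' (cj r d t z) := by
  obtain ⟨n, hn⟩ := k
  refine ⟨ac r d t⁻¹ n, fun g hg => ?_⟩
  simp only [cj, hn _ (hD g hg), ac_sub, ← ac_mul]
  congr 2; group

theorem cj_comb (x y : ℚ_[2]) :
    cj r d t (x • z + y • z') = x • cj r d t z + y • cj r d t z' :=
  funext fun g => by simp only [cj, Pi.add_apply, Pi.smul_apply, ac_add, ac_smul]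

theorem OneK.conj (h : Rep r S) {D D' : Set GQ} (o : OneK r D' d e)
    (hD : ∀ g ∈ D', t * g * t⁻¹ ∈ D) : OneK r D d e := fun z z' a a' b b' => by
  obtain ⟨x, y, h1, h2⟩ := o _ _ (cj_z h a t) (cj_z h a' t) (cj_b b hD) (cj_b b' hD)
  refine ⟨x, y, h1, ?_⟩
  rw [← cj_comb] at h2
  simpa only [cj_cj] using cj_b (t := t⁻¹) h2 fun g hg => kn_conj _ hg

theorem OneK.place (h : Rep r S) {l : ℕ} {P' : Ideal (𝓞 Qb)} (o : OneK r (dec P) d e) (ho : Ov l P)
    (ho' : Ov l P') : OneK r (dec P') d e := by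
  obtain ⟨t, -, k⟩ := ex_conj ho' ho
  exact o.conj h (t := t⁻¹) fun g hg => by simpa using k g hg

/-- a global cocycle is conjugation invariant up to a coboundary -/
theorem cj_glob (k : Z1 r d Set.univ z) (t g : GQ) :
    cj r d t z g = z g - (ac r d g (ac r d t⁻¹ (z t)) - ac r d t⁻¹ (z t)) := by
  have := z_conj (D := ⊤) k (g := t) (j := g) trivial trivial
  simp only [cj, this, ac_sub, ← ac_mul]
  rw [inv_mul_cancel, ac_one]
  congr 3; group

/-- restriction to an open subgroup of index two is injective -/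
theorem res_inj (h : Rep r S) (k : Z1 r d Set.univ z) (b : B1 r d (kn e) z) : B1 r d Set.univ z := by
  obtain ⟨n, hn⟩ := b
  exact b_sub (z_avg (D := ⊤) (kn_open e) (z_sub h k n).2 fun j _ hj => sub_eq_zero.2 (hn j hj))

open Classical in
/-- the corestriction -/
def cor (r : Rp) (d e : ℤ) (s : GQ) (z : GQ → V) (g : GQ) : V :=
  if g ∈ kn e then z g + ac r d s (z (s⁻¹ * g * s)) else z (g * s) + ac r d s (z (s⁻¹ * g))

theorem cor_z (h : Rep r S) (hs : nu e s = 1) (k : Z1 r d (kn e) z) :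
    Z1 r d Set.univ (cor r d e s z) := by
  have a : ∀ {x y : GQ}, nu e x + nu e y = 0 → x * y ∈ kn e := fun k => (nu_mul e _ _).trans k
  have n1 : ∀ {g : GQ}, g ∉ kn e → nu e g = 1 := fun k => (z2 _).resolve_left k
  have m1 : ∀ {g : GQ}, g ∈ kn e → s⁻¹ * g * s ∈ kn e := fun k => by simpa using kn_conj s⁻¹ k
  have m2 : ∀ {g : GQ}, g ∉ kn e → g * s ∈ kn e := fun k => a (by rw [n1 k, hs]; rfl)
  have m3 : ∀ {g : GQ}, g ∉ kn e → s⁻¹ * g ∈ kn e := fun k => a (by rw [nu_inv, n1 k, hs]; rfl)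
  have c := (acL r d s).continuous_of_finiteDimensional
  refine ⟨Continuous.continuousOn ?_, fun g _ j _ => ?_⟩
  · have cl : IsClopen (kn e : Set GQ) := ⟨(kn e).isClosed_of_isOpen (kn_open e), kn_open e⟩
    refine continuous_of_cover_nhds (s := fun b : Bool => if b then (kn e : Set GQ) else (kn e : Set GQ)ᶜ)
      (fun g => ?_) fun b => ?_
    · by_cases hg : g ∈ kn e
      · exact ⟨true, cl.2.mem_nhds hg⟩
      · exact ⟨false, cl.1.isOpen_compl.mem_nhds hg⟩
    · cases b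
      · exact ((k.1.comp (by fun_prop) fun g hg => m2 hg).add (c.comp_continuousOn
          (k.1.comp (f := fun g => s⁻¹ * g) (by fun_prop) fun g hg => m3 hg))).congr
          fun g hg => if_neg hg
      · exact (k.1.add (c.comp_continuousOn (k.1.comp (f := fun g => s⁻¹ * g * s) (by fun_prop)
          fun g hg => m1 hg))).congr fun g hg => if_pos hg
  have f : ∀ {x y w : GQ}, x ∈ kn e → y ∈ kn e → w = x * y → z w = z x + ac r d x (z y) :=
    fun hx hy e => e ▸ k.2 _ hx _ hy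
  by_cases hg : g ∈ kn e <;> by_cases hj : j ∈ kn e
  · rw [cor, cor, cor, if_pos hg, if_pos hj, if_pos (mul_mem hg hj), f (w := g * j) hg hj rfl,
      f (w := s⁻¹ * (g * j) * s) (m1 hg) (m1 hj) (by group)]
    simp only [ac_add, ← ac_mul, mul_assoc, mul_inv_cancel_left]; abel
  · rw [cor, cor, cor, if_pos hg, if_neg hj, if_neg (fun m => hj ((mul_mem_cancel_left hg).1 m)),
      f (w := g * j * s) hg (m2 hj) (by group), f (w := s⁻¹ * (g * j)) (m1 hg) (m3 hj) (by group)]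
    simp only [ac_add, ← ac_mul, mul_assoc, mul_inv_cancel_left]; abel
  · rw [cor, cor, cor, if_neg hg, if_pos hj, if_neg (fun m => hg ((mul_mem_cancel_right hj).1 m)),
      f (w := g * j * s) (m2 hg) (m1 hj) (by group), f (w := s⁻¹ * (g * j)) (m3 hg) hj (by group)]
    simp only [ac_add, ← ac_mul, mul_assoc, mul_inv_cancel_left]; abel
  · rw [cor, cor, cor, if_neg hg, if_neg hj, if_pos (a (by rw [n1 hg, n1 hj]; rfl)),
      f (w := g * j) (m2 hg) (m3 hj) (by group),
      f (w := s⁻¹ * (g * j) * s) (m3 hg) (m2 hj) (by group)]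
    simp only [ac_add, ← ac_mul, mul_assoc, mul_inv_cancel_left]; abel

theorem ac_in (hd : d ≠ 0) (he : e ≠ 0) {g : GQ} (hg : g ∈ kn e) (v : V) :
    ac r (d * e) g v = ac r d g v :=
  ac_congr r (by rw [nu_mul_left hd he, mem_kn.1 hg, add_zero]) v

theorem ac_out (hd : d ≠ 0) (he : e ≠ 0) (hs : nu e s = 1) (v : V) :
    ac r (d * e) s v = -ac r d s v := by
  rw [ac, ac, sg_add (nu_mul_left hd he s), sg_of_one hs, mul_neg_one, neg_smul]

theorem z_tw (hd : d ≠ 0) (he : e ≠ 0) : Z1 r (d * e) (kn e) z ↔ Z1 r d (kn e) z :=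
  and_congr_right' (forall₂_congr fun g hg => forall₂_congr fun j _ => by rw [ac_in hd he hg])

theorem b_tw (hd : d ≠ 0) (he : e ≠ 0) {D : Set GQ} (hD : D ⊆ kn e) :
    B1 r (d * e) D z ↔ B1 r d D z :=
  exists_congr fun n => forall₂_congr fun g hg => by rw [ac_in hd he (hD hg)]

theorem z_res {D D' : Set GQ} (k : Z1 r d D z) (hD : D' ⊆ D) : Z1 r d D' z :=
  ⟨k.1.mono hD, fun g hg j hj => k.2 g (hD hg) j (hD hj)⟩

theorem b_res {D D' : Set GQ} (k : B1 r d D z) (hD : D' ⊆ D) : B1 r d D' z :=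
  k.imp fun n hn g hg => hn g (hD hg)

theorem b_congr {D : Set GQ} (k : B1 r d D z) (hD : ∀ g ∈ D, z' g = z g) : B1 r d D z' :=
  k.imp fun n hn g hg => (hD g hg).trans (hn g hg)

theorem z_comb {D : Set GQ} (k : Z1 r d D z) (k' : Z1 r d D z') (x y : ℚ_[2]) :
    Z1 r d D (x • z + y • z') :=
  ⟨(k.1.const_smul x).add (k'.1.const_smul y), fun g hg j hj => by
    simp only [Pi.add_apply, Pi.smul_apply, k.2 g hg j hj, k'.2 g hg j hj, ac_add, ac_smul, smul_add]
    abel⟩

/-- every continuous global cocycle is a relaxed Selmer cocycle -/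
theorem rel_iff (h : Rep r S) (hn : NoI r) : Rel r d z ↔ Z1 r d Set.univ z :=
  ⟨fun k => k.1, fun k => ⟨k, fun l P ho hl => lh1 h hn ho hl (z_res k (Set.subset_univ _))⟩⟩

/-- **SHAP**, first half -/
theorem onek (h : Rep r S) (hn : NoI r) (hd : d ≠ 0) (he : e ≠ 0) (hs : nu e s = 1)
    (hP : ∀ g ∈ dec P, nu e g = 0) (k : ¬ TwoK r P d e) : OneK r (dec P) d e := by
  refine OneK.conj h (D' := {g | s * g * s⁻¹ ∈ dec P}) (t := s) ?_ fun g hg => hg
  intro z z' a a' b b'
  have ks : ∀ {z}, Z1 r d (kn e) z → B1 r d {g | s * g * s⁻¹ ∈ dec P} z →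
      KSel r P d e (cor r d e s z) (cor r (d * e) e s z) := fun {z} a b =>
    ⟨(rel_iff h hn).2 (cor_z h hs a), (rel_iff h hn).2 (cor_z h hs ((z_tw hd he).2 a)), by
      have c := cj_b (t := s⁻¹) (D' := dec P) b fun g hg => by simpa [mul_assoc] using hg
      refine b_congr (b1_comb c c 1 1) fun g hg => ?_
      simp only [Pi.sub_apply, Pi.add_apply, one_smul, cor, if_pos (mem_kn.2 (hP g hg)),
        ac_out hd he hs, cj, inv_inv]
      abel⟩
  by_contra hc
  refine k ⟨_, _, _, _, ks a b, ks a' b', fun x y h1 h2 => by_contra fun h3 => hc ⟨x, y, h3, ?_⟩⟩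
  refine b_congr (b1_comb (b_res h1 (Set.subset_univ _)) ((b_tw hd he subset_rfl).1
    (b_res h2 (Set.subset_univ _))) (1 / 2) (1 / 2)) fun g hg => ?_
  simp only [Pi.add_apply, Pi.smul_apply, cor, if_pos (show g ∈ kn e from hg), ac_out hd he hs]
  module

/-- **SHAP**, second half -/
theorem not_twoK (h : Rep r S) (hd : d ≠ 0) (he : e ≠ 0) (hs : nu e s = 1)
    (o : OneK r (dec P) d e) : ¬ TwoK r P d e := by
  rintro ⟨c, c', b, b', k, k', hi⟩
  have u := Set.subset_univ (kn e : Set GQ)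
  have zz : ∀ {c c'}, KSel r P d e c c' → Z1 r d (kn e) (c - c') := fun k => by
    simpa [sub_eq_add_neg] using z_comb (z_res k.1.1 u) ((z_tw hd he).1 (z_res k.2.1.1 u)) 1 (-1)
  obtain ⟨x, y, h1, h2⟩ := o _ _ (zz k) (zz k') k.2.2 k'.2.2
  have p := z_comb k.1.1 k'.1.1 x y
  have q := z_comb k.2.1.1 k'.2.1.1 x y
  generalize hw : x • c + y • b = w at p
  generalize hw' : x • c' + y • b' = w' at q
  have h3 : B1 r d (kn e) (w - w') := by
    convert h2 using 1
    rw [← hw, ← hw']; module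
  have h4 : B1 r d (kn e) (w + w') := by
    have := cj_b (t := s) h3 fun g hg => kn_conj s hg
    refine b_sub (n := ac r d s⁻¹ (w s)) (b_sub (n := ac r (d * e) s⁻¹ (w' s)) (b_congr this
      fun g hg => ?_))
    have e1 := cj_glob p s g
    have e2 := cj_glob q s g
    rw [ac_in hd he hg] at e2
    rw [cj, ac_out hd he (by rwa [nu_inv]), neg_eq_iff_eq_neg] at e2
    rw [cj] at e1
    rw [cj, Pi.sub_apply, ac_sub, e1, e2, Pi.add_apply]
    abel
  refine h1 (hi x y (hw ▸ res_inj (e := e) h p ?_) (hw' ▸ res_inj h q ((b_tw hd he subset_rfl).2 ?_)))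
  · convert b1_comb h4 h3 (1 / 2) (1 / 2) using 1
    module
  · convert b1_comb h4 h3 (1 / 2) (-1 / 2) using 1
    module

theorem ex_out (he : e < 0) : ∃ s, nu e s = 1 := by
  let φ : Qb →+* ℂ := (IsAlgClosed.lift (R := ℚ) (S := Qb) (M := ℂ)).toRingHom
  let _ : Algebra Qb ℂ := φ.toAlgebra
  have : IsScalarTower ℚ Qb ℂ := IsScalarTower.of_algebraMap_eq' (Subsingleton.elim _ _)
  exact ⟨(Complex.conjAe.restrictScalars ℚ).restrictNormal Qb, nu_neg_conj he ⟨φ,
    AlgEquiv.restrictNormal_commutes (Complex.conjAe.restrictScalars ℚ) Qb⟩⟩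

/-- **SHAP**: any place above two -/
theorem shap (h : Rep r S) (hn : NoI r) (ho : Ov 2 P) (hd : d ≠ 0) (hs : Sp S P d e)
    {P' : Ideal (𝓞 Qb)} (ho' : Ov 2 P') : ¬ TwoK r P d e ↔ OneK r (dec P') d e := by
  obtain ⟨s, k⟩ := ex_out (e := e) (by linarith [hs.neg])
  exact ⟨fun a => (onek h hn hd hs.sq.ne_zero k hs.two a).place h ho ho',
    fun a => not_twoK h hd hs.sq.ne_zero k (a.place h ho' ho)⟩

end Vale.Agent.P004F.En
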