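import Vale.Agent.P004F.En.Gq
import Vale.Agent.P004S.Lt

/-!
# P004F, row UR: ramification of representations with given traces
-/

set_option linter.all false

noncomputable section

namespace Vale.Agent.P004F.En

open NumberField Matrix
open Vale.Agent.P022 (Qb GQ IsFrob UnrAt)
open Vale.Agent.P022E.GW (Ov)
open Vale.Agent.P004S

variable {r r' : Rp} {S S' : Finset ℕ} {a : ℕ → ℤ} {d d' : ℤ}

/-- the traces of almost all Frobenius elements are given by `a` -/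
def Trc (r : Rp) (a : ℕ → ℤ) : Prop :=
  {p : ℕ | p.Prime ∧ ∃ g, IsFrob p g ∧ (mt r g).trace ≠ a p}.Finite

/-- the representations with traces `a` are unramified at the primes of `δ` -/
def Urd (a : ℕ → ℤ) (δ : ℕ) : Prop :=
  ∀ (r : Rp) (S : Finset ℕ), Rep r S → Trc r a → ∀ l : ℕ, l.Prime → l ∣ δ → UnrAt r l

/-- the twist by `d` has the traces `a` -/
def Tw (r : Rp) (d : ℤ) (a : ℕ → ℤ) : Prop :=
  {p : ℕ | p.Prime ∧ ∃ g, IsFrob p g ∧ sg d g * (mt r g).trace ≠ a p}.Finite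

theorem Tw.eq (t : Tw r d a) (t' : Tw r' d' a) (h : Rep r S) (h' : Rep r' S') (g : GQ) :
    sg d g * (mt r g).trace = sg d' g * (mt r' g).trace := by
  by_contra c
  obtain ⟨l, φ, hl, h1, h2, h3⟩ := P022K.Cheb.exists_fr (isOpen_ne_fun
    ((sg_cont d).mul h.mt_cont.matrix_trace) ((sg_cont d').mul h'.mt_cont.matrix_trace)) c
    (t.union t').toFinset
  rw [Set.Finite.mem_toFinset, Set.mem_union, not_or] at h1
  exact h3 ((by_contra fun k => h1.1 ⟨hl, φ, h2, k⟩ : _ = _).trans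
    (by_contra fun k => h1.2 ⟨hl, φ, h2, k⟩ : _ = _).symm)

/-- an element which does not change traces acts trivially -/
theorem one_of_tr (h : Rep r S) {i : GQ} (e : ∀ g, (mt r (g * i)).trace = (mt r g).trace) :
    mt r i = 1 := by
  let ρ : GQ →* Matrix (Fin 2) (Fin 2) ℚ_[2] := (Units.coeHom _).comp r
  refine sub_eq_zero.1 (nil_zero two_ne_zero ρ ⊤ (fun w hw => (h.irr w hw).imp fun x k => ⟨trivial, k⟩)
    {X | ∃ j, (∀ g, (mt r (g * j)).trace = (mt r g).trace) ∧ X = mt r j - 1} ?_ ?_ ?_ ⟨i, e, rfl⟩)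
  · rintro _ ⟨j, k, rfl⟩
    rw [trace_sub, ← one_mul j, k, mt_one, sub_self]
  · rintro _ ⟨j, k, rfl⟩ _ ⟨j', k', rfl⟩
    have := k' 1
    simp only [mul_sub, sub_mul, trace_sub, mul_one, one_mul, ← mt_mul, k', mt_one] at this ⊢
    rw [this]; ring
  · rintro y - _ ⟨j, k, rfl⟩
    refine ⟨y⁻¹ * j * y, fun g => ?_, ?_⟩
    · rw [← tr_conj r y, ← tr_conj r y g, ← k (y * g * y⁻¹)]
      congr 2; group
    · rw [mul_sub, sub_mul, mul_one, ← map_mul, inv_mul_cancel, map_one, mt_mul, mt_mul]; rfl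

theorem Tw.unr (t : Tw r d a) (t' : Tw r' d' a) (h : Rep r S) (h' : Rep r' S') {l : ℕ}
    (hl : l.Prime) (hS : l ∉ S') (hd : ¬ (l : ℤ) ∣ d) (hd' : ¬ (l : ℤ) ∣ d') : UnrAt r l :=
  fun P p1 p2 i hi => Units.ext (one_of_tr h fun g => by
    have o : Ov l P := ⟨hl, p1, p2⟩
    have e := t.eq t' h h' (g * i)
    rw [sg_mul, sg_mul, sg_of_zero (nu_inert o (h'.ne_two hS) hd hi), mul_one,
      sg_of_zero (nu_inert o (h'.ne_two hS) hd' hi), mul_one, mt_mul r', h'.mt_inert o hS hi, mul_one,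
      ← t.eq t' h h' g] at e
    exact mul_left_cancel₀ (norm_pos_iff.1 (by rw [norm_sg]; norm_num)) e)

open scoped NumberTheorySymbols in
theorem Trc.tw {c : ℕ → ℤ} (t : Trc r c) (hd : d ≠ 0) {M : ℕ} (hM : M ≠ 0)
    (e : ∀ p : ℕ, p.Prime → ¬ p ∣ M → c p = a p * J(d | p)) : Tw r d a := by
  refine (t.union (M * (2 * d.natAbs)).primeFactors.finite_toSet).subset ?_
  rintro p ⟨hp, g, hg, k⟩
  by_contra n
  rw [Set.mem_union, not_or, Finset.mem_coe, Nat.mem_primeFactors] at n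
  have n2 : ¬ p ∣ M * (2 * d.natAbs) := fun z => n.2 ⟨hp, z, by simp [hM, hd]⟩
  have n3 : ¬ (p : ℤ) ∣ d := fun z => n2 (((Int.natCast_dvd.1 z).mul_left _).mul_left _)
  haveI := Fact.mk hp
  obtain ⟨P, p1, p2, p3⟩ := id hg
  have s := sg_frob ⟨hp, p1, p2⟩ (by rintro rfl; exact n2 ((dvd_mul_right _ _).mul_left _)) n3 p3
  refine k ?_
  rw [(by_contra fun z => n.1 ⟨hp, g, hg, z⟩ : (mt r g).trace = c p), e p hp fun z => n2 (z.mul_right _),
    ← jacobiSym.legendreSym.to_jacobiSym, Int.cast_mul, ← s, mul_left_comm, sg_sq, mul_one]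

open scoped NumberTheorySymbols in
/-- one modulus serves for all twists -/
theorem ex_mod (a : ℕ → ℤ) : ∃ m : ℕ, m ≠ 0 ∧ ∀ (c : ℕ → ℤ) (d : ℤ) (M δ : ℕ), d ≠ 0 → M ≠ 0 →
    (∀ p : ℕ, p.Prime → ¬ p ∣ M → c p = a p * J(d | p)) → m.Coprime δ → d.natAbs.Coprime δ →
    Urd c δ := by
  by_cases k : ∃ r S d, d ≠ 0 ∧ Rep r S ∧ Tw r d a
  swap
  · exact ⟨1, one_ne_zero, fun c d M δ hd hM e _ _ r S h t => (k ⟨r, S, d, hd, h, t.tw hd hM e⟩).elim⟩
  obtain ⟨r', S', d', d0, h', t'⟩ := k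
  refine ⟨d'.natAbs * ∏ l ∈ S'.filter Nat.Prime, l, mul_ne_zero (by simpa)
    (Finset.prod_ne_zero_iff.2 fun l hl => (Finset.mem_filter.1 hl).2.ne_zero),
    fun c d M δ hd hM e h1 h2 r S h t l hl k => ?_⟩
  have n : ∀ {x : ℕ}, x.Coprime δ → ¬ l ∣ x := fun c z =>
    hl.one_lt.ne' (Nat.eq_one_of_dvd_coprimes c z k)
  exact (t.tw hd hM e).unr t' h h' hl (fun z => n h1 ((Finset.dvd_prod_of_mem _
    (Finset.mem_filter.2 ⟨z, hl⟩)).mul_left _)) (fun z => n h2 (Int.natCast_dvd.1 z))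
    fun z => n h1 ((Int.natCast_dvd.1 z).mul_right _)

end Vale.Agent.P004F.En
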