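import Vale.Agent.P004F.En.Nos
import Vale.Agent.P004F.En.Ur
import Vale.Agent.P004F.Qx.Unv

/-!
# P004F, row NSC: decomposition groups with inertia invariants are not scalar
-/

set_option linter.all false

open scoped Classical

noncomputable section

namespace Vale.Agent.P004F.En

open NumberField Matrix WeierstrassCurve.Affine
open Vale.Agent.P022 (Qb GQ IsFrob)
open Vale.Agent.P022D.W (dec)
open Vale.Agent.P022.H443 (inP)
open Vale.Agent.P022E.GW (Ov Fb)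
open Vale.Agent.P004M.TE hiding Qb GQ mt
open Vale.Agent.P004S (mt ep)
open P027M.K

variable {A B : ℤ} (hD : 4 * (A : ℚ) ^ 3 + 27 * (B : ℚ) ^ 2 ≠ 0) {p : ℕ} {P : Ideal (𝓞 Qb)}

/-- the bad primes of the model -/
def bad (A B : ℤ) : Finset ℕ := (2 * (4 * A ^ 3 + 27 * B ^ 2)).natAbs.primeFactors

include hD

theorem good {l : ℕ} (hl : l.Prime) (h : l ∉ bad A B) : ¬ (l : ℤ) ∣ 2 * (4 * A ^ 3 + 27 * B ^ 2) :=
  fun k => h (Nat.mem_primeFactors.2 ⟨hl, Int.natCast_dvd.1 k, Int.natAbs_ne_zero.2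
    (mul_ne_zero two_ne_zero (by exact_mod_cast hD))⟩)

theorem rep_bad : P004S.Rep (rep hD) (bad A B) :=
  rep_ok hD (by_contra fun k => good hD Nat.prime_two k (dvd_mul_right _ _)) fun l => good hD

theorem tr_cs {l : ℕ} [Fact l.Prime] (hg : ¬ (l : ℤ) ∣ 2 * (4 * A ^ 3 + 27 * B ^ 2)) {g : GQ}
    (h : IsFrob l g) : (mt (rep hD) g).trace = (-cs (A : ZMod l) (B : ZMod l) : ℤ) := by
  rw [P004S.mt, rep_val, RingHom.mapMatrix_apply, ← AddMonoidHom.map_trace, (frob_mt hD hg h).1]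
  simp

omit hD in
theorem cs_scale {k : Type} [Field k] [Fintype k] (a b : k) {u : k} (hu : u ≠ 0) :
    cs (u ^ 4 * a) (u ^ 6 * b) = cs a b := by
  refine (Fintype.sum_equiv (Equiv.mulLeft₀ (u ^ 2) (pow_ne_zero 2 hu)) _ _ fun x => ?_).symm
  rw [Equiv.mulLeft₀_apply, show (u ^ 2 * x) ^ 3 + u ^ 4 * a * (u ^ 2 * x) + u ^ 6 * b =
    (u ^ 3) ^ 2 * (x ^ 3 + a * x + b) by ring, map_mul, quadraticChar_sq_one' (pow_ne_zero 3 hu),
    one_mul]

theorem tr_scale {u : ℤ} (hD' : 4 * ((u ^ 4 * A : ℤ) : ℚ) ^ 3 + 27 * ((u ^ 6 * B : ℤ) : ℚ) ^ 2 ≠ 0)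
    (g : GQ) : (mt (rep hD') g).trace = (mt (rep hD) g).trace := by
  by_contra c
  obtain ⟨l, φ, hl, h1, h2, h3⟩ := P022K.Cheb.exists_fr (isOpen_ne_fun
    (rep_bad hD').mt_cont.matrix_trace (rep_bad hD).mt_cont.matrix_trace) c (bad (u ^ 4 * A) (u ^ 6 * B))
  haveI := Fact.mk hl
  have k := good hD' hl h1
  have e : 2 * (4 * (u ^ 4 * A) ^ 3 + 27 * (u ^ 6 * B) ^ 2) =
    u * (u ^ 11 * (2 * (4 * A ^ 3 + 27 * B ^ 2))) := by ring
  refine h3 ?_
  rw [tr_cs hD' k h2, tr_cs hD (fun z => k (e ▸ (z.mul_left _).mul_left _)) h2]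
  push_cast
  rw [cs_scale _ _ fun z => k (e ▸ ((ZMod.intCast_zmod_eq_zero_iff_dvd _ _).1 z).mul_right _)]

theorem fix_tors {g : GQ} (h : mt (rep hD) g = 1) {n : ℕ} {y : Pt A B} (hy : 2 ^ n • y = 0) :
    ga g y = y := by
  have e : rho (A : ℚ) B g = 1 := (LinearMap.toMatrixAlgEquiv (bs hD)).injective (by
    rw [← mt_eq, map_one]
    ext i j
    have := congrFun (congrFun h i) j
    rw [mt_rep] at this
    refine Subtype.ext (this.trans ?_)
    simp only [one_apply]; split_ifs <;> rfl)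
  obtain ⟨x, rfl⟩ := TM.exists_cp (hdiv hD) hy
  rw [← cp_rho, e]
  rfl

/-- unramified and bad: the model is not minimal -/
theorem not_min (ho : Ov p P) (h5 : 5 ≤ p) (ur : ∀ i ∈ inP P, mt (rep hD) i = 1)
    (bad : (p : ℤ) ∣ 4 * A ^ 3 + 27 * B ^ 2) : (p : ℤ) ^ 4 ∣ A ∧ (p : ℤ) ^ 6 ∣ B := by
  obtain ⟨O, hO⟩ := Qx.Fg.ex_O ho.2.1 (Qx.Fg.ne_bot ho.1.ne_zero ho.2.2)
  have p0 : (p : Qb) ≠ 0 := by exact_mod_cast ho.1.ne_zero
  refine nos hD O.valuation (IntermediateField.fixedField (inP P)).toSubfield ho.1 h5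
    (fun n => (O.valuation_le_one_iff _).2 (intCast_mem O n)) (fun n => ?_) (fun a ha k => ?_)
    ?_ bad
  · rw [← hO.zp, ← Qx.Fg.int_mem ho.2.1 ho.1 ho.2.2]
    refine ⟨?_, fun k => ⟨1, n, ho.2.1.one_notMem, k, by simp⟩⟩
    rintro ⟨s, t, h1, h2, h3⟩
    rw [show t = s * n from RingOfIntegers.ext (by simpa using h3.symm)] at h2
    exact (ho.2.1.mem_or_mem h2).resolve_left h1
  · have := (hO.ip _).1 (Qx.unv p P ho.1 ho.2.1 ho.2.2 a (fun g hg => ha ⟨g, hg⟩) ((hO.zp _).2 k))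
    rwa [map_div₀, div_le_one₀ (zero_lt_iff.2 (O.valuation.ne_zero_iff.2 p0))] at this
  · rintro x y ⟨h, n, hn⟩
    have := fun g : inP P => (ga_some g.1 h).symm.trans (fix_tors hD (ur g.1 g.2) hn)
    simp only [Point.some.injEq] at this
    exact ⟨fun g => (this g).1, fun g => (this g).2⟩

/-- **unramified Frobenius elements have integral traces** -/
theorem int_tr (ho : Ov p P) (h5 : 5 ≤ p) (ur : ∀ i ∈ inP P, mt (rep hD) i = 1) {σ : GQ}
    (hσ : Fb p P σ) : ∃ t : ℤ, t ^ 2 ≤ 4 * p ∧ (mt (rep hD) σ).trace = t := by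
  induction' hn : (4 * A ^ 3 + 27 * B ^ 2).natAbs using Nat.strong_induction_on with n ih
    generalizing A B
  by_cases k : (p : ℤ) ∣ 4 * A ^ 3 + 27 * B ^ 2
  swap
  · obtain ⟨t, h1, h2, -⟩ := tr_frob hD ho.1 (fun z => ((Nat.prime_iff_prime_int.1
      ho.1).dvd_or_dvd z).elim (fun z => by have := Int.le_of_dvd two_pos z; omega) k)
      ⟨P, ho.2.1, ho.2.2, hσ⟩
    exact ⟨t, h1, h2⟩
  obtain ⟨⟨A, rfl⟩, ⟨B, rfl⟩⟩ := not_min hD ho h5 ur k
  have e : 4 * ((p : ℤ) ^ 4 * A) ^ 3 + 27 * (p ^ 6 * B) ^ 2 = p ^ 12 * (4 * A ^ 3 + 27 * B ^ 2) := by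
    ring
  have h0 : (p : ℤ) ^ 12 * (4 * A ^ 3 + 27 * B ^ 2) ≠ 0 := e ▸ by exact_mod_cast hD
  have hD' : 4 * (A : ℚ) ^ 3 + 27 * (B : ℚ) ^ 2 ≠ 0 := by exact_mod_cast right_ne_zero_of_mul h0
  rw [tr_scale hD' hD]
  refine ih _ ?_ hD' (fun i hi => one_of_tr (rep_bad hD') fun g => ?_) rfl
  · rw [← hn, e, Int.natAbs_mul, Int.natAbs_pow, Int.natAbs_natCast]
    exact lt_mul_of_one_lt_left (Int.natAbs_pos.2 (right_ne_zero_of_mul h0))
      (Nat.one_lt_pow (by norm_num) ho.1.one_lt)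
  · rw [← tr_scale hD' hD, ← tr_scale hD' hD, P004S.mt_mul, ur i hi, mul_one]

/-- **NSC** -/
theorem nsc (ho : Ov p P) (h2 : p ≠ 2) {σ : GQ} (hσ : Fb p P σ)
    (ur : ∀ i ∈ inP P, mt (rep hD) i = 1) (a : ℚ_[2]) : mt (rep hD) σ ≠ a • 1 := fun ha => by
  have e := ep_fb (rep_bad hD) ho h2 hσ
  rw [ep, ha, det_smul, det_one, mul_one, Fintype.card_fin] at e
  have h5 : 5 ≤ p := by
    by_contra k
    obtain rfl : p = 3 := by
      have := ho.1.two_le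
      have := ho.1.eq_two_or_odd
      omega
    have z : (P004M.TE.mt hD σ 0 0) ^ 2 = ((3 : ℕ) : ℤ_[2]) := Subtype.ext (by
      have := congrFun (congrFun ha 0) 0
      rw [mt_rep] at this
      rw [PadicInt.coe_pow, this, PadicInt.coe_natCast, ← e]
      simp)
    have := congrArg (PadicInt.toZModPow (p := 2) 2) z
    rw [map_pow, map_natCast] at this
    revert this
    generalize PadicInt.toZModPow (p := 2) 2 _ = x
    revert x
    decide
  obtain ⟨t, -, ht⟩ := int_tr hD ho h5 ur hσ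
  rw [ha, trace_smul, trace_one, Fintype.card_fin, smul_eq_mul] at ht
  have e1 : t ^ 2 = 4 * p := by
    have : (t : ℚ_[2]) ^ 2 = 4 * p := by rw [← ht, ← e]; push_cast; ring
    exact_mod_cast this
  obtain ⟨u, rfl⟩ : 2 ∣ t := Int.prime_two.dvd_of_dvd_pow (n := 2) ⟨2 * p, by linarith⟩
  exact ho.1.prime.not_isSquare ⟨u.natAbs, by
    rw [← Int.natAbs_mul, show u * u = p by linarith, Int.natAbs_natCast]⟩

end Vale.Agent.P004F.En
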