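import Vale.Agent.P004F.St
import Vale.Agent.P004F.En.Nsc
import Vale.Agent.P004F.En.Lh
import Vale.Agent.P004S.Lt

/-!
# P004F: the rows `NSC` and `UNI`
-/

set_option linter.all false

noncomputable section

namespace Vale.Agent.P004F.En

open NumberField Matrix
open Vale.Agent.P022 Vale.Agent.P004K
open Vale.Agent.P027M.S (Inert)
open Vale.Agent.P022D.W (dec)
open Vale.Agent.P022E.GW (Ov Fb Gn)
open Vale.Agent.P004S
open P004T (ds)

/-- inertia with a fixed vector is unipotent, and is controlled by the tame generator -/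
theorem uni {r : Rp} {S : Finset ℕ} {l : ℕ} {P : Ideal (𝓞 Qb)} (h : Rep r S) (ho : Ov l P)
    (hl : l ≠ 2) {v : V} (v0 : v ≠ 0) (hv : ∀ g, Inert P g → mt r g *ᵥ v = v) {τ g : GQ}
    (hτ : Gn l P τ) (hg : Inert P g) : (mt r g - 1) ^ 2 = 0 ∧ (mt r τ = 1 → mt r g = 1) := by
  have a : ∀ u g j, Inert P g → Inert P j → mt r g *ᵥ (mt r j *ᵥ u - u) = mt r j *ᵥ u - u :=
    fun u g j hg hj => by
      obtain ⟨s, hs⟩ := wp_line (x := mt r j *ᵥ u - u) v0 (by
        have := wp_mulVec (mt r j) u v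
        rw [hv j hj, show (mt r j).det = 1 from ep_inert h ho hl hj, one_mul] at this
        rw [wp_sub_left, this, sub_self])
      rw [hs, mulVec_smul, hv g hg]
  refine ⟨ext_of_mulVec_single fun i => ?_, fun t => ext_of_mulVec_single fun i => ?_⟩
  · rw [sq, ← mulVec_mulVec]
    simp only [sub_mulVec, one_mulVec, a _ g g hg hg, sub_self, zero_mulVec]
  have n : ‖(Pi.single i 1 : V)‖ ≤ 1 := by simp [Pi.norm_single]
  rw [one_mulVec, ← sub_eq_zero]
  refine norm_le_zero_iff.1 (ge_of_tendsto' (tendsto_pow_atTop_nhds_zero_of_lt_one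
    (r := (1 / 2 : ℝ)) (by norm_num) (by norm_num)) fun k => ?_)
  exact lt.small_tau ho hl hτ (a := fun g => mt r g *ᵥ Pi.single i 1 - Pi.single i 1)
    ((h.mt_cont.matrix_mulVec continuous_const).sub continuous_const)
    (fun g => norm_sub_le' ((h.norm_mt _ _).trans n) n) (fun g j hg hj => by
      rw [mt_mul, ← mulVec_mulVec, ← a _ g j hg hj, mulVec_sub, sub_sub_sub_cancel_right, sub_self]
      simp) (by rw [t, one_mulVec, sub_self, norm_zero]; positivity) hg

variable (e : Crv)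

theorem cv_mt (g : GQ) : mt e.rp g = (algebraMap ℤ_[2] ℚ_[2]).mapMatrix (e.r g) := rfl

theorem cv_inj : Function.Injective ((algebraMap ℤ_[2] ℚ_[2]).mapMatrix : M2 ℤ_[2] → M2 ℚ_[2]) :=
  Matrix.map_injective Subtype.val_injective

theorem cv_one {g : GQ} : mt e.rp g = 1 ↔ e.r g = 1 := by
  rw [cv_mt, ← map_one (algebraMap ℤ_[2] ℚ_[2]).mapMatrix, cv_inj.eq_iff]

theorem cv_det {g : GQ} {a : ℤ_[2]} (h : ep e.rp g = a) : (e.r g).det = a :=
  Subtype.ext ((PadicInt.Coe.ringHom.map_det (e.r g)).trans h)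

theorem cv_abs : (ds e.δ).natAbs = e.δ := by
  have := jacobiSym.eq_one_or_neg_one (a := -1) (b := e.δ) (by simp)
  rw [ds, Int.natAbs_mul, P004Z.eps]
  rcases this with k | k <;> simp [k]

theorem cv_ds : ds e.δ ≠ 0 := fun k => by
  have := cv_abs e
  have := e.ok.one
  simp only [k, Int.natAbs_zero] at *
  omega

theorem sg_sd (d : ℤ) (g : GQ) : sg d g = (sd d g : ℚ_[2]) := by
  unfold sg sd; split_ifs <;> simp

theorem cv_rd (g : GQ) (i j : Fin 2) :
    ((e.rd g i j : ℤ_[2]) : ℚ_[2]) = sg (ds e.δ) g * mt e.rp g i j := by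
  rw [sg_sd, Crv.rd, Matrix.smul_apply, zsmul_eq_mul, PadicInt.coe_mul, PadicInt.coe_intCast]; rfl

theorem nsc_row : NSC := fun e p P φ ho h2 hφ ur s k =>
  nsc _ ho h2 hφ (fun i hi => (cv_one e).2 (ur i hi)) s (by
    refine (cv_mt e φ).trans (Matrix.ext fun i j => ?_)
    simp only [k, RingHom.mapMatrix_apply, map_apply, Matrix.smul_apply, one_apply]
    split_ifs <;> simp)

theorem uni_row : UNI := fun e p hp g hg => by
  classical
  obtain ⟨h1, h2, v, v0, hv⟩ := Finset.mem_filter.1 hp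
  have m : p ∈ e.S := (List.mem_filter.1 (List.mem_toFinset.1 h1)).1
  obtain ⟨a, b⟩ := uni (r := e.rp) (rep_bad _) (e.ov p m) h2 (v := fun i => v i)
    (fun k => v0 (funext fun i => Subtype.ext (congrFun k i))) (fun j hj => funext fun i =>
      (PadicInt.Coe.ringHom.map_mulVec (e.r j) v i).symm.trans (congrArg _ (congrFun (hv j hj) i)))
    (e.gn p m h2) hg
  refine ⟨cv_inj ?_, fun k => (cv_one e).1 (b ((cv_one e).2 k))⟩
  rw [map_pow, map_sub, map_one, map_zero]
  exact a

end Vale.Agent.P004F.En
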