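import Vale.Agent.P004F.En.Sh

/-!
# P004F, row BIG: good Frobenius elements for split and for inert tower primes
-/

set_option linter.all false

noncomputable section

namespace Vale.Agent.P004F.En

open NumberField Matrix
open Vale.Agent.P022 (Qb GQ)
open Vale.Agent.P004S

variable {r : Rp} {S : Finset ℕ}

/-- the representation is not induced -/
def NCM (r : Rp) : Prop := ∀ H : Subgroup GQ, (∀ g ∉ H, (mt r g).trace = 0) → H = ⊤

theorem tr_even (h : Rep r S) {g : GQ} (t : Tr r 1 g) : ‖(mt r g).trace‖ ≤ 1 / 2 := by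
  have := norm_add_le' (norm_add_le' (t 0 0) (t 1 1)) (show ‖(2 : ℚ_[2])‖ ≤ (1 / 2) ^ 1 by
    rw [norm_two, pow_one])
  rw [pow_one] at this
  rw [trace_fin_two]
  exact (congrArg norm (by simp; ring)).trans_le this

/-- residual image cyclic of order three -/
theorem ncm_c3 (h : Rep r S) (h1 : ∃ g, ¬ ‖(mt r g).trace‖ ≤ 1 / 2)
    (h2 : ∀ g, ‖(mt r g).trace‖ ≤ 1 / 2 → Tr r 1 g) : NCM r := fun H hH => by_contra fun c => by
  obtain ⟨g, hg⟩ := h1
  have a : ∀ y ∉ H, Tr r 1 y := fun y hy => h2 y (by rw [hH y hy]; simp)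
  obtain ⟨y, hy⟩ := not_forall.1 fun k => c ((Subgroup.eq_top_iff' H).2 k)
  refine hg (tr_even h ?_)
  by_cases m : g ∈ H
  · simpa using h.tr_mul (a (g * y) fun k => hy ((mul_mem_cancel_left m).1 k)) (h.tr_inv (a y hy))
  · exact a g m

theorem an0 {X A : Matrix (Fin 2) (Fin 2) ℚ_[2]} (h0 : X.trace = 0) (h1 : (X * A).trace = 0) :
    X * (A - (A.trace / 2) • 1) = -((A - (A.trace / 2) • 1) * X) :=
  anti h0 (by simp) (by simp [mul_sub, h0, h1])

theorem four {X A B : Matrix (Fin 2) (Fin 2) ℚ_[2]} (hX : X.det ≠ 0) (h0 : X.trace = 0)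
    (h1 : (X * A).trace = 0) (h2 : (X * B).trace = 0) (h3 : (X * (A * B)).trace = 0) :
    A * B = B * A := by
  have a := an0 h0 h1
  have b := an0 h0 h2
  have t : (X * ((A - (A.trace / 2) • 1) * (B - (B.trace / 2) • 1))).trace = 0 := by
    simp [mul_sub, sub_mul, h0, h1, h2, h3]
  suffices k : (A - (A.trace / 2) • 1) * (B - (B.trace / 2) • 1) =
      (B - (B.trace / 2) • 1) * (A - (A.trace / 2) • 1) by
    simp only [mul_sub, sub_mul, smul_mul_assoc, mul_smul_comm, mul_one, one_mul, smul_sub,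
      smul_comm (A.trace / 2) (B.trace / 2)] at k
    rw [← sub_eq_zero] at k ⊢
    rw [← k]; abel
  generalize A - (A.trace / 2) • 1 = U at *
  generalize B - (B.trace / 2) • 1 = W at *
  have sc : ∀ Y, (X * Y).trace = 0 → X * Y = Y * X → Y = (Y.trace / 2) • 1 := fun Y p q => by
    have := an0 h0 p
    rw [show (Y - (Y.trace / 2) • 1) * X = X * (Y - (Y.trace / 2) • 1) by simp [mul_sub, sub_mul, q],
      eq_neg_iff_add_eq_zero, ← two_smul ℚ_[2]] at this
    have := congrArg (X⁻¹ * ·) ((smul_eq_zero.1 this).resolve_left two_ne_zero)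
    simp only [← mul_assoc, nonsing_inv_mul _ (isUnit_iff_ne_zero.2 hX), one_mul, mul_zero] at this
    exact sub_eq_zero.1 this
  rw [sc _ t (by rw [← mul_assoc, a, neg_mul, mul_assoc, b, mul_neg, neg_neg, mul_assoc]),
    sc (W * U) (by rw [← mul_assoc, trace_mul_comm, ← mul_assoc, ← neg_eq_zero, ← trace_neg,
      ← neg_mul, ← a, mul_assoc, t])
      (by rw [← mul_assoc, b, neg_mul, mul_assoc, a, mul_neg, neg_neg, mul_assoc]),
    trace_mul_comm]

theorem mt_inv (r : Rp) (g : GQ) : mt r g * mt r g⁻¹ = 1 := by rw [← mt_mul, mul_inv_cancel, mt_one]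

theorem ex_cc' (h : Rep r S) : ∃ c, c * c = 1 ∧ ep r c = -1 := by
  let φ : Qb →+* ℂ := (IsAlgClosed.lift (R := ℚ) (S := Qb) (M := ℂ)).toRingHom
  let _ : Algebra Qb ℂ := φ.toAlgebra
  have : IsScalarTower ℚ Qb ℂ := IsScalarTower.of_algebraMap_eq' (Subsingleton.elim _ _)
  obtain ⟨c, k⟩ : ∃ c : GQ, ∀ x, φ (c x) = starRingEnd ℂ (φ x) :=
    ⟨_, AlgEquiv.restrictNormal_commutes (Complex.conjAe.restrictScalars ℚ) Qb⟩
  have e : c * c = 1 := AlgEquiv.ext fun x => φ.injective (by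
    rw [AlgEquiv.mul_apply, k, k, Complex.conj_conj, AlgEquiv.one_apply])
  refine ⟨c, e, (mul_self_eq_one_iff.1 (by rw [← ep_mul, e, ep_one])).resolve_left fun a => ?_⟩
  obtain ⟨w, b⟩ := ex_sqrt (-1)
  have := cyc_ep r S h c 2 1 w (by rw [show 2 ^ 2 = 2 * 2 from rfl, pow_mul, b]; norm_num)
    (by simp [a])
  rw [pow_one, ← nu_eq_zero b, nu_neg_conj (by norm_num) ⟨φ, k⟩] at this
  exact one_ne_zero this

theorem canc {M Z : Matrix (Fin 2) (Fin 2) ℚ_[2]} (h : M.det ≠ 0) (e : M * Z = 0) : Z = 0 := by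
  rw [← one_mul Z, ← nonsing_inv_mul _ (isUnit_iff_ne_zero.2 h), mul_assoc, e, mul_zero]

theorem dih {A B X : Matrix (Fin 2) (Fin 2) ℚ_[2]} (c : A * B = B * A) (t : B.trace = A.trace)
    (d : B.det = A.det) (n2 : A.trace ^ 2 ≠ 4 * A.det) (e : B * X = X * A) (hx : X * A ≠ A * X) :
    X.trace = 0 := by
  have q : (B - A) * (B + A - A.trace • 1) = 0 := by
    simp only [mul_sub, mul_add, sub_mul, cay, t, d, c, mul_smul_comm, mul_one, smul_sub]; abel
  have q' : (B + A - A.trace • 1) * (B - A) = 0 := by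
    simp only [mul_sub, add_mul, sub_mul, cay, t, d, c, smul_mul_assoc, one_mul, smul_sub]; abel
  have iv : (A + A - A.trace • 1).det ≠ 0 := fun z => n2 (by
    simp only [det_fin_two, trace_fin_two] at z ⊢
    simp at z
    linear_combination -z)
  have D0 : (B - A).det ≠ 0 := fun z => by
    have C0 : (B + A - A.trace • 1).det ≠ 0 := fun z' => iv (by
      rw [← mul_self_eq_zero, ← det_mul, show A + A - A.trace • 1 =
        (B + A - A.trace • 1) - (B - A) by abel]
      have tc : (B + A - A.trace • 1).trace = 0 := by simp [t]; ring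
      have td : (B - A).trace = 0 := by simp [t]
      generalize B + A - A.trace • 1 = C at *
      generalize B - A = D at *
      simp [mul_sub, sub_mul, cay, q, q', z, z', tc, td])
    exact hx (by rw [← e, sub_eq_zero.1 (canc C0 q')])
  have a : X * (A + A - A.trace • 1) = -((A + A - A.trace • 1) * X) := by
    rw [show B = A.trace • 1 - A from by rw [← sub_eq_zero, ← canc D0 q]; abel] at e
    simp only [mul_sub, mul_add, sub_mul, add_mul, ← e, smul_mul_assoc, mul_smul_comm, mul_one,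
      one_mul]
    abel
  generalize A + A - A.trace • 1 = M at a iv
  have := congrArg (fun Y => (Y * M⁻¹).trace) a
  simp only [mul_assoc, mul_nonsing_inv _ (isUnit_iff_ne_zero.2 iv), mul_one, neg_mul, trace_neg]
    at this
  rw [trace_mul_comm, mul_assoc, nonsing_inv_mul _ (isUnit_iff_ne_zero.2 iv), mul_one] at this
  linear_combination this / 2

theorem Big.disc {k : GQ} (b : Big r k) (h : Rep r S) : (mt r k).trace ^ 2 ≠ 4 * (mt r k).det :=
  fun e => (b.pow h two_ne_zero).ne (by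
    rw [show (mt r k).det = 1 from b.ep] at e
    rw [sq, mt_mul, cay, show (mt r k).det = 1 from b.ep]; simp; linear_combination e)

/-- a central element is scalar -/
theorem cen (h : Rep r S) {A : Matrix (Fin 2) (Fin 2) ℚ_[2]} (cm : ∀ x, mt r x * A = A * mt r x) :
    ∃ a : ℚ_[2], A = a • 1 := by
  obtain ⟨c, c1, c2⟩ := ex_cc' h
  have n1 : mt r c - 1 ≠ 0 := fun e => by
    rw [ep, sub_eq_zero.1 e, det_one] at c2
    norm_num at c2
  obtain ⟨w, w0, hw⟩ := exists_mulVec_eq_zero_iff.2 (show (mt r c - 1).det = 0 by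
    have := cay (mt r c)
    rw [← mt_mul, c1, mt_one, show (mt r c).det = -1 from c2, neg_smul, one_smul, sub_neg_eq_add,
      right_eq_add, smul_eq_zero] at this
    rw [det_sub_one, show (mt r c).det = -1 from c2, this.resolve_right fun e => by
      simp [ep, e] at c2]
    simp)
  obtain ⟨a, ha⟩ := ker_line n1 w0 hw (u := A *ᵥ w) (by
    rw [mulVec_mulVec, sub_mul, cm, one_mul, ← mul_sub_one, ← mulVec_mulVec, hw, mulVec_zero])
  obtain ⟨y, hy⟩ := h.irr w w0
  refine ⟨a, sub_eq_zero.1 (by_contra fun e => (ker_line e w0 (by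
    rw [sub_mulVec, ha, smul_mulVec, one_mulVec, sub_self]) ?_).elim hy)⟩
  change _ *ᵥ mt r y *ᵥ w = 0
  rw [sub_mulVec, smul_mulVec, one_mulVec, mulVec_mulVec, ← cm, ← mulVec_mulVec, ha, mulVec_smul,
    sub_self]

/-- a conjugate which does not commute -/
theorem Big.ex_nc {k : GQ} (b : Big r k) (h : Rep r S) (hn : NCM r) :
    ∃ x, mt r k * mt r (x * k * x⁻¹) ≠ mt r (x * k * x⁻¹) * mt r k := by
  by_contra hc
  push Not at hc
  let H : Subgroup GQ :=
    { carrier := {x | mt r (x * k) = mt r (k * x)}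
      mul_mem' := fun {x y} (hx : _ = _) (hy : _ = _) => by
        show _ = _
        rw [mul_assoc, mt_mul, hy, ← mt_mul, ← mul_assoc, mt_mul, hx, ← mt_mul, mul_assoc]
      one_mem' := by simp
      inv_mem' := fun {x} (hx : _ = _) => by
        have := congrArg (fun M => mt r x⁻¹ * M * mt r x⁻¹) hx
        simp only [← mt_mul] at this
        simpa [mul_assoc] using this.symm }
  have top := hn H fun x hx => dih (hc x) (tr_conj r x k) (ep_conj r x k) (b.disc h)
    (by rw [← mt_mul, ← mt_mul, inv_mul_cancel_right]) (by rw [← mt_mul, ← mt_mul]; exact hx)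
  obtain ⟨a, e⟩ := cen h (A := mt r k) fun x => by
    rw [← mt_mul, ← mt_mul]; exact (Subgroup.eq_top_iff' H).1 top x
  exact b.disc h (by rw [e]; simp; ring)

/-- traces which are bounded below -/
theorem Big.tr_ge {k : GQ} (b : Big r k) (h : Rep r S) (hn : NCM r) : ∃ (x : GQ) (m : ℕ), ∀ g,
    ∃ u ∈ ({1, k, x * k * x⁻¹, k * (x * k * x⁻¹)} : Set GQ), (1 / 2) ^ m ≤ ‖(mt r (g * u)).trace‖ := by
  obtain ⟨x, hx⟩ := b.ex_nc h hn
  have := P022.H443.galQb
  let u : Fin 4 → GQ := ![1, k, x * k * x⁻¹, k * (x * k * x⁻¹)]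
  let f : GQ → ℝ := fun g => ‖fun i => (mt r (g * u i)).trace‖
  obtain ⟨g, -, hg⟩ := isCompact_univ.exists_isMinOn (f := f) Set.univ_nonempty
    (continuous_pi fun i => (h.mt_cont.comp (by fun_prop)).matrix_trace).norm.continuousOn
  obtain ⟨m, hm⟩ := exists_pow_lt_of_lt_one (show 0 < f g from norm_pos_iff.2 fun e => hx (four
    (X := mt r g) (norm_pos_iff.1 (by rw [← P004S.ep, h.norm_ep]; norm_num))
    (by simpa [u] using congrFun e 0) (by simpa [u, mt_mul] using congrFun e 1)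
    (by rw [← mt_mul]; exact congrFun e 2)
    (by rw [← mt_mul, ← mt_mul]; exact congrFun e 3))) (show (1 / 2 : ℝ) < 1 by norm_num)
  refine ⟨x, m, fun y => by_contra fun c => ?_⟩
  push Not at c
  refine absurd (hm.trans_le (hg trivial : f g ≤ f y)) (not_lt.2 (le_of_lt ?_))
  exact (pi_norm_lt_iff (by positivity)).2 fun i => c _ (by fin_cases i <;> simp [u])

/-- **good elements in every coset of every subgroup of bounded index** -/
theorem Big.gq_all {k : GQ} (b : Big r k) (h : Rep r S) (n : ℕ) : ∃ m, ∀ W : Subgroup GQ,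
    W.index ≠ 0 → W.index ≤ n → ∀ g, ‖P004S.ep r g - 1‖ ≤ 1 / 4 ∨
      (NCM r ∧ ‖P004S.ep r g + 1‖ ≤ (1 / 2) ^ (m + 1)) →
      ∃ u ∈ W, P004S.ep r u = 1 ∧ Tr r 3 u ∧ Gq r m (g * u) := by
  have pw : ∀ W : Subgroup GQ, W.index ≠ 0 → W.index ≤ n → ∀ y : GQ, y ^ n.factorial ∈ W :=
    fun W h0 h1 y => by
      obtain ⟨j, j0, j1, e⟩ := Subgroup.exists_pow_mem_of_index_ne_zero h0 y
      obtain ⟨i, hi⟩ := Nat.dvd_factorial j0 (j1.trans h1)
      rw [hi, pow_mul]
      exact pow_mem e i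
  obtain ⟨m, hm⟩ := b.gq h n.factorial_ne_zero
  have c := b.pow h n.factorial_ne_zero
  have a1 : ∀ m', m ≤ m' → ∀ W : Subgroup GQ, W.index ≠ 0 → W.index ≤ n → ∀ g,
      ‖P004S.ep r g - 1‖ ≤ 1 / 4 → ∃ u ∈ W, P004S.ep r u = 1 ∧ Tr r 3 u ∧ Gq r m' (g * u) :=
    fun m' e W h0 h1 g hg => by
      obtain ⟨i, -, hi⟩ := hm g hg
      exact ⟨_, by rw [pow_mul]; exact pow_mem (pw W h0 h1 k) i, by rw [ep_pow, b.ep, one_pow],
        (h.Kn 3).pow_mem b.tr _, hi.mono e⟩
  by_cases hn : NCM r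
  swap
  · exact ⟨m, fun W h0 h1 g hg => a1 m le_rfl W h0 h1 g (hg.resolve_right fun e => hn e.1)⟩
  obtain ⟨x, m', hx⟩ := c.tr_ge h hn
  refine ⟨m + m', fun W h0 h1 g hg => hg.elim (a1 _ (by omega) W h0 h1 g) fun e => ?_⟩
  obtain ⟨u, hu, t⟩ := hx g
  have w1 := pw W h0 h1 k
  have w2 : x * k ^ n.factorial * x⁻¹ ∈ W := by
    rw [← conj_pow]; exact pw W h0 h1 _
  have e2 := (ep_conj r x _).trans c.ep
  have u1 : u ∈ W ∧ P004S.ep r u = 1 ∧ Tr r 3 u := by
    rcases hu with rfl | rfl | rfl | rfl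
    · exact ⟨one_mem _, ep_one r, (h.Kn 3).one_mem⟩
    · exact ⟨w1, c.ep, c.tr⟩
    · exact ⟨w2, e2, h.tr_conj c.tr x⟩
    · exact ⟨mul_mem w1 w2, by rw [ep_mul, c.ep, e2, one_mul], h.tr_mul c.tr (h.tr_conj c.tr x)⟩
  have t' := (half_anti (show m' ≤ m + m' by omega)).trans t
  have l := e.2.trans_lt (pow_lt_pow_right_of_lt_one₀ (a := (1 / 2 : ℝ)) (by norm_num) (by norm_num)
    (m + m').lt_succ_self)
  refine ⟨u, u1.1, u1.2.1, u1.2.2, ?_, ?_⟩ <;> rw [ep_mul, u1.2.1, mul_one]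
  · rw [← norm_neg]
    exact le_of_near t' ((congrArg norm (by ring)).trans_lt l)
  · exact le_of_near t' (by rw [← norm_neg]; exact (congrArg norm (by ring)).trans_lt l)

end Vale.Agent.P004F.En
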