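import Vale.Agent.P004F.En.Rep

/-!
# P004F, row NSC: a minimal model with bad reduction has ramified torsion
-/

set_option linter.all false

open scoped Classical

noncomputable section

namespace Vale.Agent.P004F.En

open NumberField WeierstrassCurve.Affine
open Vale.Agent.P022 (Qb GQ)
open Vale.Agent.P004H.H666 (xp zp eqn xp_some zp_some xp_zero zp_zero xp_neg)
open Vale.Agent.P004M.TE hiding Qb GQ

variable {A B : ℤ} (hD : 4 * (A : ℚ) ^ 3 + 27 * (B : ℚ) ^ 2 ≠ 0)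

/-- the coordinates of a point of order a power of two -/
def To (A B : ℤ) (x y : Qb) : Prop :=
  ∃ (h : (Cv Qb (A : ℚ) (B : ℚ)).Nonsingular x y) (n : ℕ), 2 ^ n • (Point.some x y h : Pt A B) = 0

/-- the roots of the cubic -/
structure Rt (A B : ℤ) (e₁ e₂ e₃ : Qb) : Prop where
  s : e₁ + e₂ + e₃ = 0
  a : algebraMap ℚ Qb A = e₁ * e₂ + e₁ * e₃ + e₂ * e₃
  b : algebraMap ℚ Qb B = -(e₁ * e₂ * e₃)

variable {e₁ e₂ e₃ : Qb}

theorem Rt.swap (t : Rt A B e₁ e₂ e₃) : Rt A B e₁ e₃ e₂ :=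
  ⟨by linear_combination t.s, by linear_combination t.a, by linear_combination t.b⟩

theorem Rt.rot (t : Rt A B e₁ e₂ e₃) : Rt A B e₂ e₃ e₁ :=
  ⟨by linear_combination t.s, by linear_combination t.a, by linear_combination t.b⟩

include hD

theorem Rt.two (t : Rt A B e₁ e₂ e₃) : To A B e₁ 0 := by
  have h := nsg_cv (L := Qb) two_ne_zero hD (x := e₁) (y := 0) (by
    rw [t.a, t.b]; linear_combination -e₁ ^ 2 * t.s)
  exact ⟨h, 1, (two_tors two_ne_zero h).2 rfl⟩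

/-- halving -/
theorem Rt.half (t : Rt A B e₁ e₂ e₃) {x y r₁ r₂ r₃ : Qb} (k : To A B x y) (h1 : r₁ ^ 2 = x - e₁)
    (h2 : r₂ ^ 2 = x - e₂) (h3 : r₃ ^ 2 = x - e₃) :
    To A B (e₁ + (r₁ + r₂) * (r₁ + r₃)) ((r₁ + r₂) * (r₁ + r₃) * (r₂ + r₃)) := by
  obtain ⟨h0, n, hn⟩ := k
  obtain rfl : e₁ = x - r₁ ^ 2 := by linear_combination h1
  obtain rfl : e₂ = x - r₂ ^ 2 := by linear_combination h2
  obtain rfl : e₃ = x - r₃ ^ 2 := by linear_combination h3
  obtain rfl : x = (r₁ ^ 2 + r₂ ^ 2 + r₃ ^ 2) / 3 := by linear_combination t.s / 3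
  have h := nsg_cv (L := Qb) two_ne_zero hD (x := (r₁ ^ 2 + r₂ ^ 2 + r₃ ^ 2) / 3 - r₁ ^ 2 +
    (r₁ + r₂) * (r₁ + r₃)) (y := (r₁ + r₂) * (r₁ + r₃) * (r₂ + r₃)) (by rw [t.a, t.b]; ring)
  refine ⟨h, n + 1, ?_⟩
  obtain ⟨μ, hμ, a, b⟩ := dbl two_ne_zero h
  rw [pow_succ, mul_smul]
  generalize 2 • Point.some _ _ h = R at a b
  rcases R with _ | ⟨x', y', h'⟩
  · exact nsmul_zero _
  rw [xp_some] at a
  rw [zp_some] at b
  rcases xp_eq (P := .some x' y' h') (Q := .some _ _ h0) (Point.some_ne_zero _) (Point.some_ne_zero _)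
    (by
      rw [xp_some, xp_some, a, t.a, t.b]
      linear_combination -((r₁ ^ 2 + r₂ ^ 2 + r₃ ^ 2) / 3) * b) with e | e <;> rw [e]
  · exact hn
  · rw [neg_nsmul, hn, neg_zero]

/-- **bad minimal models are ramified**; `U` is a subfield which contains the coordinates -/
theorem nos {Γ : Type} [LinearOrderedCommGroupWithZero Γ] (v : Valuation Qb Γ) (U : Subfield Qb)
    {p : ℕ} (hp : p.Prime) (h5 : 5 ≤ p) (iz : ∀ n : ℤ, v n ≤ 1) (lt : ∀ n : ℤ, v n < 1 ↔ (p : ℤ) ∣ n)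
    (un : ∀ a ∈ U, v a < 1 → v a ≤ v p) (hU : ∀ x y, To A B x y → x ∈ U ∧ y ∈ U)
    (bad : (p : ℤ) ∣ 4 * A ^ 3 + 27 * B ^ 2) : (p : ℤ) ^ 4 ∣ A ∧ (p : ℤ) ^ 6 ∣ B := by
  have p0 : v p ≠ 0 := v.ne_zero_iff.2 (by exact_mod_cast hp.ne_zero)
  have dv : ∀ (n : ℕ) (D : ℤ), v D ≤ v p ^ n → (p : ℤ) ^ n ∣ D := fun n => by
    induction n with
    | zero => simp
    | succ n ih =>
      intro D h
      have p1 : v p < 1 := by simpa using (lt p).2 dvd_rfl
      obtain ⟨D, rfl⟩ := ih D (h.trans (pow_le_pow_right_of_le_one' p1.le n.le_succ))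
      rw [Int.cast_mul, map_mul, Int.cast_pow, map_pow, Int.cast_natCast, pow_succ,
        mul_le_mul_iff_right₀ (zero_lt_iff.2 (pow_ne_zero _ p0))] at h
      exact pow_succ (p : ℤ) n ▸ mul_dvd_mul_left _ ((lt D).1 (h.trans_lt p1))
  have un1 : ∀ n : ℕ, n ≠ 0 → n < 5 → v n = 1 := fun n a b => le_antisymm (by simpa using iz n)
    (not_lt.1 fun k => absurd (Nat.le_of_dvd (Nat.pos_of_ne_zero a) (Int.natCast_dvd_natCast.1
      ((lt n).1 (by simpa using k)))) (by omega))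
  have v2 : v 2 = 1 := by simpa using un1 2 two_ne_zero (by norm_num)
  have v3 : v 3 = 1 := by simpa using un1 3 (by norm_num) (by norm_num)
  have sq : ∀ {x : Qb}, v (x ^ 2) < 1 → v x < 1 := fun k => by
    rw [map_pow] at k; exact (pow_lt_one_iff two_ne_zero).1 k
  have rt : ∀ x : Qb, ∃ r, r ^ 2 = x := fun x => IsAlgClosed.exists_pow_nat_eq x two_pos
  have vA : v (algebraMap ℚ Qb A) ≤ 1 := by rw [map_intCast]; exact iz A
  have vB : v (algebraMap ℚ Qb B) ≤ 1 := by rw [map_intCast]; exact iz B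
  have i1 : ∀ {e₁ e₂ e₃}, Rt A B e₁ e₂ e₃ → v e₁ ≤ 1 := fun {e₁ e₂ e₃} t => not_lt.1 fun k => by
    have e : e₁ ^ 3 = -(algebraMap ℚ Qb A * e₁) - algebraMap ℚ Qb B := by
      rw [t.a, t.b]; linear_combination e₁ ^ 2 * t.s
    refine absurd (v.map_sub_le (g := v e₁) (by
      rw [v.map_neg, map_mul]; exact mul_le_of_le_one_left' vA) (vB.trans k.le)) (not_le.2 ?_)
    rw [← e, map_pow]
    exact lt_self_pow₀ k (by norm_num)
  have dd : ∀ {e₁ e₂ e₃}, Rt A B e₁ e₂ e₃ → ((4 * A ^ 3 + 27 * B ^ 2 : ℤ) : Qb) =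
      -((e₁ - e₂) * ((e₁ - e₃) * (e₂ - e₃))) ^ 2 := fun {e₁ e₂ e₃} t => by
    have a := t.a
    have b := t.b
    rw [map_intCast] at a b
    obtain rfl : e₃ = -e₁ - e₂ := by linear_combination t.s
    push_cast; rw [a, b]; ring
  obtain ⟨e₁, e₂, e₃, t, h12⟩ : ∃ e₁ e₂ e₃, Rt A B e₁ e₂ e₃ ∧ v (e₁ - e₂) < 1 := by
    obtain ⟨e₁, e₂, e₃, -, -, -, a, b, c⟩ := three_roots (L := Qb) two_ne_zero hD
    have t : Rt A B e₁ e₂ e₃ := ⟨a, b, c⟩
    by_contra k
    push Not at k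
    have := (lt _).2 bad
    rw [dd t, v.map_neg] at this
    have := sq this
    rw [map_mul, map_mul] at this
    exact absurd this (not_lt.2 (one_le_mul (k _ _ _ t) (one_le_mul (k _ _ _ t.swap) (k _ _ _ t.rot))))
  have u1 := (hU _ _ (t.two hD)).1
  have l13 := v.map_sub_le (i1 t) (i1 t.rot.rot)
  by_cases h13 : v (e₁ - e₃) < 1
  · obtain ⟨r, hr⟩ := rt (e₁ - e₂)
    obtain ⟨s, hs⟩ := rt (e₁ - e₃)
    obtain ⟨a, b⟩ := hU _ _ (t.half hD (t.two hD) (r₁ := 0) (by ring) hr hs)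
    have D0 : ((4 * A ^ 3 + 27 * B ^ 2 : ℤ) : Qb) ≠ 0 := by exact_mod_cast hD
    rw [dd t, ← hr, ← hs, show e₂ - e₃ = (s - r) * (r + s) by linear_combination hr - hs] at D0
    simp only [zero_add] at a b
    have n1 : r * s ≠ 0 ∧ r + s ≠ 0 := ⟨fun e => D0 (by
      linear_combination -(r * s) ^ 3 * ((s - r) * (r + s)) ^ 2 * e), fun e => D0 (by rw [e]; ring)⟩
    have c : r + s ∈ U := by
      have := U.div_mem b (U.sub_mem a u1)
      rwa [add_sub_cancel_left, mul_div_cancel_left₀ _ n1.1] at this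
    have d : s - r ∈ U := by
      have := U.div_mem (U.sub_mem (hU _ _ (t.rot.two hD)).1 (hU _ _ (t.rot.rot.two hD)).1) c
      rwa [show e₂ - e₃ = (s - r) * (r + s) by linear_combination hr - hs,
        mul_div_cancel_right₀ _ n1.2] at this
    have m2 : (2 : Qb) ∈ U := by simpa using natCast_mem U 2
    have vr := un r (by convert U.div_mem (U.sub_mem c d) m2 using 1; ring) (sq (hr ▸ h12))
    have vs := un s (by convert U.div_mem (U.add_mem c d) m2 using 1; ring) (sq (hs ▸ h13))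
    have w2 : v (r ^ 2) ≤ v p ^ 2 := by rw [map_pow]; exact pow_le_pow_left' vr 2
    have w3 : v (s ^ 2) ≤ v p ^ 2 := by rw [map_pow]; exact pow_le_pow_left' vs 2
    have a1 : v e₁ ≤ v p ^ 2 := by
      have := v.map_add_le w2 w3
      rwa [show r ^ 2 + s ^ 2 = 3 * e₁ by linear_combination hr + hs - t.s, map_mul, v3, one_mul]
        at this
    have a2 : v e₂ ≤ v p ^ 2 := by
      convert v.map_sub_le a1 w2 using 2; linear_combination hr
    have a3 : v e₃ ≤ v p ^ 2 := by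
      convert v.map_sub_le a1 w3 using 2; linear_combination hs
    have m : ∀ {x y : Qb} {i j : ℕ}, v x ≤ v p ^ i → v y ≤ v p ^ j → v (x * y) ≤ v p ^ (i + j) :=
      fun a b => by rw [map_mul, pow_add]; exact mul_le_mul' a b
    refine ⟨dv 4 A ?_, dv 6 B ?_⟩
    · rw [← map_intCast (algebraMap ℚ Qb), t.a]
      exact v.map_add_le (v.map_add_le (m a1 a2) (m a1 a3)) (m a2 a3)
    · rw [← map_intCast (algebraMap ℚ Qb), t.b, v.map_neg]
      exact m (m a1 a2) a3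
  exfalso
  replace h13 : v (e₁ - e₃) = 1 := le_antisymm l13 (not_lt.1 h13)
  have D0 : (4 * A ^ 3 + 27 * B ^ 2 : ℤ) ≠ 0 := by exact_mod_cast hD
  have n12 : v (e₁ - e₂) ≠ 0 := v.ne_zero_iff.2 fun e => by
    have := dd t
    rw [e] at this
    exact D0 (by exact_mod_cast (by simpa using this : ((4 * A ^ 3 + 27 * B ^ 2 : ℤ) : Qb) = 0))
  have key : ∀ k : ℕ, ∃ x y, To A B x y ∧ v (x - e₁) ^ 2 ^ (k + 1) = v (e₁ - e₂) := fun k => by
    induction k with
    | zero =>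
      obtain ⟨r, hr⟩ := rt (e₁ - e₂)
      obtain ⟨s, hs⟩ := rt (e₁ - e₃)
      refine ⟨_, _, t.half hD (t.two hD) (r₁ := 0) (by ring) hr hs, ?_⟩
      rw [← map_pow, show (e₁ + (0 + r) * (0 + s) - e₁) ^ 2 ^ (0 + 1) = r ^ 2 * s ^ 2 by ring, hr, hs,
        map_mul, h13, mul_one]
    | succ k ih =>
      obtain ⟨x, y, h, e⟩ := ih
      have l1 : v (x - e₁) < 1 := (pow_lt_one_iff (by positivity)).1 (e ▸ h12)
      have x0 : v (x - e₁) ≠ 0 := fun z => n12 (by rw [← e, z, zero_pow (by positivity)])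
      have l2 : v (e₁ - e₂) < v (x - e₁) := e ▸ pow_lt_self_of_lt_one₀ (zero_lt_iff.2 x0) l1
        (Nat.one_lt_two_pow (by omega))
      obtain ⟨r₁, a⟩ := rt (x - e₁)
      obtain ⟨r₃, c⟩ := rt (x - e₃)
      have r1 : v r₁ < 1 := sq (a ▸ l1)
      have r3 : v r₃ = 1 := (pow_eq_one_iff_left two_ne_zero).1 (by
        rw [← map_pow, c, show x - e₃ = e₁ - e₃ + (x - e₁) by ring,
          v.map_add_eq_of_lt_left (h13 ▸ l1), h13])
      obtain ⟨r₂, b, f⟩ : ∃ r₂, r₂ ^ 2 = x - e₂ ∧ v (r₁ + r₂) = v r₁ := by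
        obtain ⟨r₂, b⟩ := rt (x - e₂)
        have w : v r₂ = v r₁ := (pow_left_inj₀ zero_le' zero_le' two_ne_zero).1 (by
          rw [← map_pow, ← map_pow, a, b, show x - e₂ = x - e₁ + (e₁ - e₂) by ring,
            v.map_add_eq_of_lt_left l2])
        by_contra k
        push Not at k
        have := v.map_add_lt ((v.map_add_le le_rfl w.le).lt_of_ne (k r₂ b))
          ((v.map_add_le le_rfl (by rw [v.map_neg, w])).lt_of_ne (k (-r₂) (by rw [neg_sq, b])))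
        rw [show r₁ + r₂ + (r₁ + -r₂) = 2 * r₁ by ring, map_mul, v2, one_mul] at this
        exact lt_irrefl _ this
      refine ⟨_, _, t.half hD h a b c, ?_⟩
      rw [add_sub_cancel_left, map_mul, f, v.map_add_eq_of_lt_right (r3 ▸ r1), r3, mul_one,
        pow_succ' 2, pow_mul, ← map_pow, a, e]
  obtain ⟨k, hk⟩ := pow_unbounded_of_one_lt (4 * A ^ 3 + 27 * B ^ 2).natAbs hp.one_lt
  obtain ⟨x, y, h, e⟩ := key k
  have l := un _ (U.sub_mem (hU x y h).1 u1) ((pow_lt_one_iff (by positivity)).1 (e ▸ h12))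
  have := dv (2 ^ (k + 1)) (4 * A ^ 3 + 27 * B ^ 2) (by
    rw [dd t, v.map_neg, map_pow, map_mul, map_mul, h13, one_mul, pow_two]
    refine (mul_le_of_le_one_right' (mul_le_one' h12.le (v.map_sub_le (i1 t.rot) (i1 t.rot.rot)))).trans
      ((mul_le_of_le_one_right' (v.map_sub_le (i1 t.rot) (i1 t.rot.rot))).trans ?_)
    exact e ▸ pow_le_pow_left' l _)
  have := Nat.le_of_dvd (Int.natAbs_pos.2 D0) (Int.natCast_dvd.1 (by exact_mod_cast this))
  exact absurd (hk.trans_le (Nat.pow_le_pow_right hp.pos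
    (k.lt_two_pow_self.le.trans (Nat.pow_le_pow_right two_pos k.le_succ)))) (not_lt.2 this)

end Vale.Agent.P004F.En
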