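import Vale.Agent.P004F.En.Cv
import Vale.Agent.P004T.Top

/-!
# P004F: the spine with the weaker form of the converse theorem
-/

set_option linter.all false

noncomputable section

namespace Vale.Agent.P004F.En

open Filter Topology UpperHalfPlane CongruenceSubgroup
open scoped NumberTheorySymbols
open Vale.Agent.P004S (Null)
open Vale.Agent.P004Z (Ok eps LF GZ)
open Vale.Agent.P004T
open P004N (RN Lat NF EF IsTw)
open P004N.T8 (Cont OddH Dens Pos)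
open Vale.Agent.P004H.H871 (kr Fd kr_odd kr_one_mod kr_pm)

variable {C : (ℕ → ℤ) → Prop} {N : ℕ} {f : ℍ → ℂ} {a : ℕ → ℤ} {r : ℤ → ℕ}

theorem ef_mul (h : EF N f a) {m : ℕ} (hm : m ≠ 0) : EF (N * m) f a :=
  ⟨Nat.mul_pos h.pos (Nat.pos_of_ne_zero hm), ⟨h.s2.holo, fun γ k => h.s2.slash γ (by
    rw [Gamma0_mem, ZMod.intCast_zmod_eq_zero_iff_dvd] at k ⊢
    exact (Int.natCast_dvd_natCast.2 (dvd_mul_right N m)).trans k), h.s2.zero⟩, h.qe, h.one,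
    fun p hp k => h.te p hp fun e => k (e.mul_right m)⟩

/-- one class of discriminants -/
theorem rare3 (hN : NRN) (hL : LF) (hG : GZ) (hH : HNZ3 C) (hf : EF N f a) (hr : Cont a r)
    (hC : Cg C a) {m : ℕ} (hm : m ∣ N) (hU : ∀ (c : ℕ → ℤ) (d : ℤ) (M δ : ℕ), d ≠ 0 → M ≠ 0 →
      (∀ p : ℕ, p.Prime → ¬ p ∣ M → c p = a p * J(d | p)) → m.Coprime δ → d.natAbs.Coprime δ →
      Urd c δ) {D₀ : ℤ} (h0 : Fd D₀) (hd : D₀ ∣ 8 * N) :
    Null fun d => ∃ δ : ℕ, d = ds δ ∧ Odd δ ∧ Squarefree δ ∧ N.Coprime δ ∧ Fd (D₀ * d) ∧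
      2 ≤ r (D₀ * d) := by
  obtain ⟨M, g, b, ε, h1, h2, h3, -⟩ := P004N.pfNewP N f a hf D₀ h0
  have hS : 0 < N * D₀.natAbs := Nat.mul_pos hf.pos (Int.natAbs_pos.2 h0.ne)
  have h4 : ∀ p : ℕ, p.Prime → ¬ p ∣ N * D₀.natAbs → b p = (a p * kr D₀ p : ℤ) := fun p hp k => by
    rw [h3 p (hp.coprime_iff_not_dvd.2 k)]; push_cast; rfl
  obtain ⟨c, L, rfl, h5, h6⟩ := hN M _ g b ε h1 hS fun p hp k => ⟨_, h4 p hp k⟩
  have h7 : C c := hC c <| Set.Finite.subset (N * D₀.natAbs).primeFactors.finite_toSet <| by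
    rintro p ⟨hp, k⟩
    refine Nat.mem_primeFactors.2 ⟨hp, by_contra fun k1 => k ?_, hS.ne'⟩
    have k2 : c p = a p * kr D₀ p := Int.cast_injective (α := ℝ) (h4 p hp k1)
    have k3 : IsCoprime D₀ (p : ℤ) := by
      rw [Int.isCoprime_iff_gcd_eq_one]
      exact (hp.coprime_iff_not_dvd.2 fun e => k1 (e.mul_left _)).symm
    rcases kr_pm h0 k3 with e | e <;> rw [k2, e] <;> omega
  refine null_mono (null_or null_one (hH M g c L h5 h6 h7)) ?_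
  rintro d - ⟨δ, rfl, ho, hs, hc, hD, hk⟩
  obtain ⟨e1, e2⟩ := ds_spec ho
  by_cases k1 : δ = 1
  · left
    omega
  have c0 : D₀.natAbs.Coprime δ := Nat.Coprime.coprime_dvd_left
    (Int.natCast_dvd_natCast.1 (Int.natAbs_dvd.2 hd) : D₀.natAbs ∣ 2 ^ 3 * N)
    (Nat.Coprime.mul_left ((Nat.coprime_two_left.2 ho).pow_left 3) hc)
  have hM : M.Coprime δ := Nat.coprime_of_dvd fun p hp k2 k3 =>
    hp.one_lt.ne' (Nat.eq_one_of_dvd_coprimes (Nat.Coprime.mul_left hc c0) (h2 p hp k2) k3)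
  have ok : Ok M δ := ⟨ho, hs, by have := ho.pos; omega, hM⟩
  have ur : Urd c δ := hU c D₀ (2 * (N * D₀.natAbs)) δ h0.ne (by omega) (fun p hp k => by
    rw [← kr_odd h0 (hp.odd_of_ne_two (by rintro rfl; exact k (dvd_mul_right _ _)))]
    exact Int.cast_injective (α := ℝ) (h4 p hp fun e => k (e.mul_left _)))
    (hc.coprime_dvd_left hm) c0
  have hd : Fd (ds δ) := Or.inl ⟨e1, Int.squarefree_natAbs.1 (e2.symm ▸ hs)⟩
  obtain ⟨G, hG'⟩ := P004N.H65.twNF h1 hd (by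
    rw [Int.isCoprime_iff_gcd_eq_one]
    show Nat.gcd M (ds δ).natAbs = 1
    rw [e2]; exact hM)
  have hT : IsTw a (D₀ * ds δ) _ G _ _ := ⟨hG', 2 * (N * D₀.natAbs), by omega, fun p hp k => by
    have k2 : Odd p := hp.odd_of_ne_two (by rintro rfl; exact k (dvd_mul_right _ _))
    have k3 : (c p : ℝ) = _ := h4 p hp fun e => k (e.mul_left _)
    show (c p : ℝ) * _ = _
    rw [k3, kr_odd hD k2, kr_odd hd k2, kr_odd h0 k2,
      jacobiSym.mul_left]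
    push_cast; ring⟩
  obtain ⟨Λ, k2, -, k3, k4⟩ := hr _ hD _ _ _ _ hT
  refine Or.inr ⟨δ, ok, ur, rfl, ?_⟩
  rintro δ' ⟨β, k5, k6⟩
  refine k6 (hG M g c L δ δ' β h5 h6 k5 (hL M g c δ Λ ⟨h5.pos, h5.s2, h5.qe, h5.one, h5.te⟩ ok
    (fun z _ => k2.1.analyticAt z) (fun s hs => ?_) (by rw [k4]; exact_mod_cast hk)))
  convert k3 s hs using 2 with n
  rw [kr_one_mod e1, e2]
  push_cast; rfl

/-- **the spine** -/
theorem spine3 (hN : NRN) (hL : LF) (hG : GZ) (hS : P004S.SMITH) (hI : ISO) (h2 : LOC2) (hW : GWK2)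
    (hK : CONVK3 C) (hf : EF N f a) (hr : Cont a r) (ho : OddH r) {P : ℤ → Prop} (hp : Pos P)
    (hC : Cg C a) : Dens r := by
  classical
  obtain ⟨m, m0, hU⟩ := ex_mod a
  have hf := ef_mul hf m0
  have hm := dvd_mul_left m N
  generalize N * m = N at hf hm
  refine dens_of ho hp (null_mono (null_ex ((Finset.Icc (-(8 * N : ℤ)) (8 * N)).filter fun D₀ =>
    Fd D₀ ∧ D₀ ∣ 8 * N) fun D₀ h => null_mul (rare3 hN hL hG (hnz3 hS hI h2 hW hK) hf hr hC hm hU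
      (Finset.mem_filter.1 h).2.1 (Finset.mem_filter.1 h).2.2) D₀) ?_)
  rintro D - ⟨hD, hk⟩
  obtain ⟨D₀, δ, rfl, h1, h2, h3⟩ := split_fd N hD
  have := hf.pos
  exact ⟨D₀, Finset.mem_filter.2 ⟨Finset.mem_Icc.2 (abs_le.1 (Int.le_of_dvd (by omega)
    ((abs_dvd _ _).2 h2))), h1, h2⟩, _, rfl, δ, rfl, h3.1, h3.2.1, h3.2.2, hD, hk⟩

end Vale.Agent.P004F.En
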